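import Vale.Agent.P230.H691.Final
import Vale.Agent.P230.D.Base
import Vale.Agent.P230.D.Decouple

/-!
# `Θ_L(n) ≤ C n log n` from THEOREM G and PART C
-/

namespace Vale.Agent.P230.H691

open MeasureTheory Finset Vale.Agent.P230.D

theorem stmtD1 : ∃ N₀ : ℕ, ∀ N, N₀ ≤ N → StmtD1 N := by
  obtain ⟨N₀, h⟩ := base_low
  refine ⟨N₀, fun N hN K hK lam h1 h2 p _ hp => ?_⟩
  have := h N hN K hK lam h1 h2 p hp
  convert this

theorem stmtD2 : StmtD2 := by
  intro N I _ p _ bad ε hε hbad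
  exact exists_h_var p bad ε hε hbad

theorem stmtD3 : StmtD3 := by
  intro t p _ J _ P hne D hD hP U η hη hU Mx hMx hprod
  exact exists_g_treeLike p D hD Mx P hne hP U η hη hU hMx hprod

theorem stmtD3' : StmtD3' := fun h => h.card_le

theorem thetaL_log_of (hG : StmtG) (hC : StmtC) :
    ∃ C : ℝ, 0 < C ∧ ∀ n : ℕ, 2 ≤ n → ThetaL n ≤ ENNReal.ofReal (C * n * Real.log n) :=
  thetaL_of_stmts hG hC stmtD1 stmtD2 stmtD3 stmtD3'

end Vale.Agent.P230.H691
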