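import Vale.Agent.P230.H691.Slices

/-!
# PART C from the kernel bound: shrinking and assembly
-/

namespace Vale.Agent.P230.H691

open MeasureTheory Finset Vale.Agent.P230 Vale.Agent.P230.D
open scoped Pointwise ENNReal

theorem shrink2 {N t n : ℕ} (ht : 1 ≤ t) (hn : 2 ≤ n) (hNn : N + t = n)
    (K₄ : Set ((Fin N → ℝ) × (Fin t → ℝ))) (hc : Convex ℝ K₄) (hk : IsCompact K₄)
    (g W : ℝ) (hE : 2 * ((1 + 1 / (n : ℝ)) / (1 - 1 / (n : ℝ))) ^ 2 ≤ 3)
    (hexp : 1 / 2 ≤ Real.exp (-((2 * (1 / (n : ℝ)) + (1 / (n : ℝ)) ^ 2) * t)))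
    (hg : 0 < g) (hW : 0 ≤ W)
    (hW2 : 6 * 4 ^ t * W ^ 2 * Real.exp (3 * t / 2) ≤ 2 ^ N)
    (hbd : ∀ (x : Fin N → ℝ) (b : Fin t → ℝ), ∑ i, b i ^ 2 ≤ 3 * t → (x, b) ∈ K₄ →
      ∀ i, |x i| ≤ 1)
    (hsimp : ∀ x : Fin N → ℝ, (∀ i, 0 ≤ x i) → ∑ i, x i ≤ 1 / (4 * Real.sqrt t) →
      (x, (0 : Fin t → ℝ)) ∈ K₄)
    (hlow : ∀ b : Fin t → ℝ, ∑ i, b i ^ 2 ≤ 3 * t →
      ENNReal.ofReal (g * Real.exp ((t - max (∑ i, b i ^ 2) t) / 2)) ≤
        volume {x | (x, b) ∈ K₄})
    (hvol : volume K₄ ≤ ENNReal.ofReal (W * g)) :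
    ∃ T : (Fin t → ℝ) → Set (Fin N → ℝ),
      (∀ b : Fin t → ℝ, Ann t b →
        Convex ℝ (T b) ∧ IsCompact (T b) ∧ (∀ x ∈ T b, ∀ i, |x i| ≤ 1) ∧
        (∃ x₀ : Fin N → ℝ, ∀ x : Fin N → ℝ,
          (∀ i, 0 ≤ x i ∧ x i ≤ 1 / (8 * Real.sqrt t * (n : ℝ) ^ 2)) → x₀ + x ∈ T b) ∧
        ENNReal.ofReal (g / 6 * prof t b) ≤ volume (T b) ∧
        volume (T b) ≤ ENNReal.ofReal (2 ^ N * (g / 6 * prof t b))) ∧
      ∀ b : Fin t → ℝ, Ann t b → ∀ a : Fin t → ℝ, Ann t a →
        ∀ x ∈ T b, ∀ x' ∈ T a,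
          (x + (1 / (n : ℝ)) • x', b + (1 / (n : ℝ)) • a) ∈ K₄ := by
  have hn0 : (2 : ℝ) ≤ n := by exact_mod_cast hn
  have hnpos : (0 : ℝ) < n := by linarith only [hn0]
  have ht0 : (1 : ℝ) ≤ t := by exact_mod_cast ht
  have hst : 1 ≤ Real.sqrt t := by
    rw [Real.one_le_sqrt]
    exact ht0
  set δ : ℝ := 1 / (n : ℝ) with hδ
  have hδ0 : 0 < δ := by positivity
  have hδ1 : δ ≤ 1 / 2 := by
    rw [hδ]
    exact one_div_le_one_div_of_le (by norm_num) hn0
  have h1δ : (0 : ℝ) < 1 + δ := by linarith only [hδ0]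
  have h1δ' : (0 : ℝ) < 1 - δ := by linarith only [hδ1]
  have hquot : 1 + δ ≤ (1 + δ) / (1 - δ) := by
    rw [le_div_iff₀ h1δ']
    nlinarith only [hδ0]
  have hsq : ∀ (b : Fin t → ℝ) (c : ℝ), ∑ i, (c • b) i ^ 2 = c ^ 2 * ∑ i, b i ^ 2 := by
    intro b c
    rw [Finset.mul_sum]
    refine Finset.sum_congr rfl fun i _ => ?_
    rw [Pi.smul_apply, smul_eq_mul, mul_pow]
  -- scaled points stay in the larger ball
  have hb1 : ∀ b : Fin t → ℝ, ∑ i, b i ^ 2 ≤ 2 * t → ∀ c : ℝ, 0 ≤ c → c ≤ (1 + δ) / (1 - δ) →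
      ∑ i, (c • b) i ^ 2 ≤ 3 * t := by
    intro b hb c hc0 hc1
    rw [hsq]
    calc c ^ 2 * ∑ i, b i ^ 2 ≤ ((1 + δ) / (1 - δ)) ^ 2 * (2 * t) := by
          (clear * - hc0 hc1 hb hn h1δ'; gcongr)
      _ = (2 * ((1 + δ) / (1 - δ)) ^ 2) * t := by ring
      _ ≤ 3 * t := by (clear * - hE ht; gcongr)
  set T : (Fin t → ℝ) → Set (Fin N → ℝ) := fun b => {x | ((1 + δ) • x, (1 + δ) • b) ∈ K₄}
    with hT
  have hslice : ∀ b : Fin t → ℝ, {x : Fin N → ℝ | (x, (1 + δ) • b) ∈ K₄} = (1 + δ) • T b := by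
    intro b
    ext x
    rw [Set.mem_smul_set_iff_inv_smul_mem₀ h1δ.ne']
    simp only [hT, Set.mem_ofPred_eq]
    rw [smul_smul, mul_inv_cancel₀ h1δ.ne', one_smul]
  have hvolT : ∀ b : Fin t → ℝ, volume {x : Fin N → ℝ | (x, (1 + δ) • b) ∈ K₄} =
      ENNReal.ofReal ((1 + δ) ^ N) * volume (T b) := by
    intro b
    rw [hslice, Measure.addHaar_smul]
    simp only [Module.finrank_fintype_fun_eq_card, Fintype.card_fin, abs_pow, abs_of_nonneg h1δ.le]
  have hpow3 : (1 + δ) ^ N ≤ 3 := one_add_pow_le (show 1 ≤ n by (clear * - hn; omega)) (by omega)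
  have hpow1 : 1 ≤ (1 + δ) ^ N := one_le_pow₀ (by linarith only [hδ0])
  -- the crude lower bound on the whole ball
  have hlow' : ∀ b : Fin t → ℝ, ∑ i, b i ^ 2 ≤ 3 * t →
      ENNReal.ofReal (g * Real.exp (-t)) ≤ volume {x | (x, b) ∈ K₄} := by
    intro b hb
    refine le_trans (ENNReal.ofReal_le_ofReal ?_) (hlow b hb)
    apply mul_le_mul_of_nonneg_left _ hg.le
    apply Real.exp_le_exp.2
    have h1 : max (∑ i, b i ^ 2) (t : ℝ) ≤ 3 * t := max_le hb (by linarith only [ht0])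
    linarith only [h1]
  refine ⟨T, ?_, ?_⟩
  · intro b hbA
    have hb := hbA.2
    have hball : ∑ i, ((1 + δ) • b) i ^ 2 ≤ 3 * t := hb1 b hb _ h1δ.le hquot
    refine ⟨?_, ?_, ?_, ?_, ?_, ?_⟩
    · intro x hx y hy a c ha hc' hac
      have h1 := hc hx hy ha hc' hac
      have e : a • ((1 + δ) • x, (1 + δ) • b) + c • ((1 + δ) • y, (1 + δ) • b) =
          ((1 + δ) • (a • x + c • y), (1 + δ) • b) := by
        ext i
        · simp only [Prod.smul_mk, Prod.mk_add_mk, Pi.add_apply, Pi.smul_apply, smul_eq_mul]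
          ring
        · simp only [Prod.smul_mk, Prod.mk_add_mk, Pi.add_apply, Pi.smul_apply, smul_eq_mul]
          rw [← add_mul, hac, one_mul]
      rw [e] at h1
      exact h1
    · have h1 : IsCompact {x : Fin N → ℝ | (x, (1 + δ) • b) ∈ K₄} := by
        refine IsCompact.of_isClosed_subset (hk.image continuous_fst) ?_ ?_
        · exact hk.isClosed.preimage (by fun_prop : Continuous fun x : Fin N → ℝ =>
            (x, (1 + δ) • b))
        · intro x hx
          exact ⟨_, hx, rfl⟩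
      have h2 : T b = (1 + δ)⁻¹ • {x : Fin N → ℝ | (x, (1 + δ) • b) ∈ K₄} := by
        rw [hslice, smul_smul, inv_mul_cancel₀ h1δ.ne', one_smul]
      rw [h2]
      exact h1.smul _
    · intro x hx i
      have h1 := hbd _ _ hball hx i
      rw [Pi.smul_apply, smul_eq_mul, abs_mul, abs_of_pos h1δ] at h1
      have h2 := abs_nonneg (x i)
      (by_contra nlg; linarith only [nlg, mul_pos (sub_pos.2 (not_le.1 nlg)) (sub_pos.2 hδ0), hδ0, h1])
    · -- the cube
      set b' : Fin t → ℝ := ((1 + δ) / (1 - δ)) • b with hb'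
      have hball' : ∑ i, b' i ^ 2 ≤ 3 * t := hb1 b hb _ (by (clear * - hn h1δ'; positivity)) le_rfl
      have hne : {x : Fin N → ℝ | (x, b') ∈ K₄}.Nonempty := by
        by_contra hemp
        rw [Set.not_nonempty_iff_eq_empty] at hemp
        have h1 := hlow' b' hball'
        rw [hemp] at h1
        simp only [measure_empty, nonpos_iff_eq_zero, ENNReal.ofReal_eq_zero] at h1
        have h2 : 0 < g * Real.exp (-t) := mul_pos hg (Real.exp_pos _)
        linarith only [h2, h1]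
      obtain ⟨x₁, hx₁⟩ := hne
      refine ⟨((1 - δ) / (1 + δ)) • x₁, fun x hx => ?_⟩
      have h3 : (((1 + δ) * n) • x, (0 : Fin t → ℝ)) ∈ K₄ := by
        apply hsimp
        · intro i
          rw [Pi.smul_apply, smul_eq_mul]
          exact mul_nonneg (by positivity) (hx i).1
        · have h4 : ∀ i, (((1 + δ) * n) • x) i ≤ 1 / (4 * Real.sqrt t * n) := by
            intro i
            rw [Pi.smul_apply, smul_eq_mul]
            calc (1 + δ) * n * x i ≤ 2 * n * (1 / (8 * Real.sqrt t * (n : ℝ) ^ 2)) := by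
                  apply mul_le_mul _ (hx i).2 (hx i).1 (by positivity)
                  gcongr
                  linarith only [hδ1]
              _ = 1 / (4 * Real.sqrt t * n) := by
                  field_simp
                  norm_num
          calc ∑ i, (((1 + δ) * n) • x) i ≤ ∑ _i : Fin N, 1 / (4 * Real.sqrt t * n) :=
                Finset.sum_le_sum fun i _ => h4 i
            _ = N / n * (1 / (4 * Real.sqrt t)) := by
                rw [Finset.sum_const, Finset.card_univ, Fintype.card_fin, nsmul_eq_mul]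
                (clear * - hn ht; field_simp)
            _ ≤ 1 * (1 / (4 * Real.sqrt t)) := by
                gcongr
                rw [div_le_one hnpos]
                exact_mod_cast (show N ≤ n by omega)
            _ = _ := one_mul _
      have h5 := hc hx₁ h3 h1δ'.le hδ0.le (by ring)
      have e : (1 - δ) • (x₁, b') + δ • (((1 + δ) * n) • x, (0 : Fin t → ℝ)) =
          ((1 + δ) • (((1 - δ) / (1 + δ)) • x₁ + x), (1 + δ) • b) := by
        ext i
        · simp only [Prod.smul_mk, Prod.mk_add_mk, Pi.add_apply, Pi.smul_apply, smul_eq_mul]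
          have h6 : δ * ((1 + δ) * n * x i) = (1 + δ) * x i := by
            rw [hδ]
            (clear * - hn; field_simp)
          rw [h6]
          (clear * - hδ0; field_simp)
        · simp only [hb', Prod.smul_mk, Prod.mk_add_mk, Pi.add_apply, Pi.smul_apply, smul_eq_mul,
            Pi.zero_apply, mul_zero, add_zero]
          (clear * - h1δ' hδ0; field_simp)
      rw [e] at h5
      exact h5
    · -- the lower bound
      have h1 := hlow _ hball
      rw [hvolT] at h1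
      set γ : ℝ := g * Real.exp ((t - max (∑ i, ((1 + δ) • b) i ^ 2) t) / 2) with hγ
      have h2 : ENNReal.ofReal γ ≤ ENNReal.ofReal 3 * volume (T b) :=
        h1.trans (mul_le_mul_left (ENNReal.ofReal_le_ofReal hpow3) _)
      have hγ2 : g / 6 * prof t b ≤ (1 / 3) * γ := by
        have e1 : max (∑ i, ((1 + δ) • b) i ^ 2) (t : ℝ) ≤
            ∑ i, b i ^ 2 + (2 * δ + δ ^ 2) * (2 * t) := by
          apply max_le
          · rw [hsq]
            have e2 : (1 + δ) ^ 2 * ∑ i, b i ^ 2 =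
                ∑ i, b i ^ 2 + (2 * δ + δ ^ 2) * ∑ i, b i ^ 2 := by ring
            rw [e2]
            have e3 : (0 : ℝ) ≤ 2 * δ + δ ^ 2 := by positivity
            have := mul_le_mul_of_nonneg_left hb e3
            linarith only [this]
          · have e3 : (0 : ℝ) ≤ (2 * δ + δ ^ 2) * (2 * t) := by positivity
            linarith only [hbA.1, e3]
        have e4 : prof t b * (1 / 2) ≤ Real.exp ((t - max (∑ i, ((1 + δ) • b) i ^ 2) t) / 2) := by
          calc prof t b * (1 / 2) ≤ prof t b * Real.exp (-((2 * δ + δ ^ 2) * t)) :=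
                mul_le_mul_of_nonneg_left hexp (Real.exp_pos _).le
            _ = Real.exp ((t - ∑ i, b i ^ 2) / 2 + -((2 * δ + δ ^ 2) * t)) := by
                rw [prof, Real.exp_add]
            _ ≤ _ := by
                apply Real.exp_le_exp.2
                linarith only [e1]
        have e5 := mul_le_mul_of_nonneg_left e4 hg.le
        rw [hγ]
        linarith only [e5]
      calc ENNReal.ofReal (g / 6 * prof t b) ≤ ENNReal.ofReal ((1 / 3) * γ) :=
            ENNReal.ofReal_le_ofReal hγ2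
        _ = ENNReal.ofReal (1 / 3) * ENNReal.ofReal γ := ENNReal.ofReal_mul (by norm_num)
        _ ≤ ENNReal.ofReal (1 / 3) * (ENNReal.ofReal 3 * volume (T b)) := by (clear * - h2; gcongr)
        _ = volume (T b) := by
            rw [← mul_assoc, ← ENNReal.ofReal_mul (by (clear * -; norm_num))]
            norm_num
    · -- the upper bound
      have h1 := slice_sup K₄ hc hk 3 (g * Real.exp (-t)) (W * Real.exp t) (by norm_num)
        (mul_pos hg (Real.exp_pos _)) (mul_nonneg hW (Real.exp_pos _).le) hlow' (by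
          refine hvol.trans (le_of_eq ?_)
          congr 1
          have : Real.exp t * Real.exp (-t : ℝ) = 1 := by
            rw [← Real.exp_add, add_neg_cancel, Real.exp_zero]
          calc W * g = W * g * 1 := (mul_one _).symm
            _ = W * g * (Real.exp t * Real.exp (-t : ℝ)) := by rw [this]
            _ = _ := by ring) ((1 + δ) • b)
      rw [hvolT] at h1
      have h2 : volume (T b) ≤ ENNReal.ofReal ((1 + δ) ^ N) * volume (T b) := by
        calc volume (T b) = 1 * volume (T b) := (one_mul _).symm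
          _ ≤ _ := by
            gcongr
            rw [← ENNReal.ofReal_one]
            exact ENNReal.ofReal_le_ofReal hpow1
      refine h2.trans (h1.trans (ENNReal.ofReal_le_ofReal ?_))
      have h3 : Real.exp (-(t / 2 : ℝ)) ≤ prof t b := by
        unfold prof
        rw [Real.exp_le_exp]
        linarith only [hb]
      have h4 : 4 ^ t * (W * Real.exp t) ^ 2 * (g * Real.exp (-t)) =
          (6 * 4 ^ t * W ^ 2 * Real.exp (3 * t / 2)) * (g / 6 * Real.exp (-(t / 2 : ℝ))) := by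
        have e1 : (Real.exp t) ^ 2 * Real.exp (-t) = Real.exp (3 * t / 2) * Real.exp (-(t / 2 : ℝ)) := by
          rw [← Real.exp_nat_mul, ← Real.exp_add, ← Real.exp_add]
          congr 1
          push_cast
          ring
        calc 4 ^ t * (W * Real.exp t) ^ 2 * (g * Real.exp (-t))
            = 4 ^ t * W ^ 2 * g * ((Real.exp t) ^ 2 * Real.exp (-t)) := by ring
          _ = 4 ^ t * W ^ 2 * g * (Real.exp (3 * t / 2) * Real.exp (-(t / 2 : ℝ))) := by rw [e1]
          _ = _ := by ring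
      rw [h4]
      calc (6 * 4 ^ t * W ^ 2 * Real.exp (3 * t / 2)) * (g / 6 * Real.exp (-(t / 2 : ℝ)))
          ≤ 2 ^ N * (g / 6 * prof t b) := by
            apply mul_le_mul hW2 _ (by positivity) (by positivity)
            exact mul_le_mul_of_nonneg_left h3 (by positivity)
        _ = _ := rfl
  · intro b hb a ha x hx x' hx'
    have hconv := hc hx hx' (a := 1 / (1 + δ)) (b := δ / (1 + δ)) (by positivity) (by positivity)
      (by (clear * - hδ0; field_simp))
    convert hconv using 1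
    ext i
    · simp only [Pi.add_apply, Pi.smul_apply, smul_eq_mul, Prod.smul_mk, Prod.mk_add_mk]
      (clear * - hδ0; field_simp)
    · simp only [Prod.smul_mk, Prod.mk_add_mk, Pi.add_apply, Pi.smul_apply, smul_eq_mul]
      field_simp

theorem numC_pow (c : ℝ) (hc : 0 < c) (t N : ℕ) (ht : 8 ≤ t) (hlogc : -(t : ℝ) ≤ Real.log c)
    (hN63 : 63 * (t : ℝ) ≤ N) :
    6 * 4 ^ t * (4 / c * (2 * Real.pi) ^ ((t : ℝ) / 2) * Real.exp (t / 2)) ^ 2 *
      Real.exp (3 * t / 2) ≤ 2 ^ N := by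
  have ht8 : (8 : ℝ) ≤ t := by exact_mod_cast ht
  have ht0 : (0 : ℝ) < t := by linarith only [ht8]
  have hpi : (2 * Real.pi) ^ ((t : ℝ) / 2) ≤ Real.exp t := by
    calc (2 * Real.pi) ^ ((t : ℝ) / 2) ≤ (Real.exp 2) ^ ((t : ℝ) / 2) :=
          Real.rpow_le_rpow (by positivity) two_pi_le_exp_two (by positivity)
      _ = Real.exp t := by
          rw [← Real.exp_mul]
          congr 1
          ring
  have hc4 : 4 / c ≤ Real.exp (2 + t) := by
    have h1 : 4 / c = Real.exp (Real.log 4 - Real.log c) := by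
      rw [Real.exp_sub, Real.exp_log hc, Real.exp_log (by norm_num : (0 : ℝ) < 4)]
    rw [h1]
    apply Real.exp_le_exp.2
    have h2 : Real.log 4 ≤ 2 := by
      have : Real.log 4 = 2 * Real.log 2 := by
        rw [show (4 : ℝ) = 2 ^ 2 by norm_num, Real.log_pow]
        push_cast
        ring
      rw [this]
      have := Real.log_two_lt_d9
      linarith only [this]
    linarith only [hlogc, h2]
  have h34 : (6 : ℝ) * 4 ^ t ≤ Real.exp (4 + 2 * t) := by
    have h1 : (6 : ℝ) ≤ Real.exp 4 := by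
      have h0 := four_le_exp_two
      have : Real.exp 4 = Real.exp 2 * Real.exp 2 := by
        rw [← Real.exp_add]
        norm_num
      rw [this]
      nlinarith only [h0]
    have h2 : (4 : ℝ) ^ t ≤ Real.exp (2 * t) := by
      calc (4 : ℝ) ^ t ≤ (Real.exp 2) ^ t := pow_le_pow_left₀ (by norm_num) four_le_exp_two t
        _ = Real.exp (2 * t) := by
          rw [← Real.exp_nat_mul]
          congr 1
          ring
    rw [Real.exp_add]
    exact mul_le_mul h1 h2 (by positivity) (by positivity)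
  have hin : 4 / c * (2 * Real.pi) ^ ((t : ℝ) / 2) * Real.exp (t / 2) ≤
      Real.exp (2 + t) * Real.exp t * Real.exp (t / 2) := by
    apply mul_le_mul _ le_rfl (by positivity) (by positivity)
    exact mul_le_mul hc4 hpi (by positivity) (by positivity)
  have hfin : 6 * 4 ^ t * (4 / c * (2 * Real.pi) ^ ((t : ℝ) / 2) * Real.exp (t / 2)) ^ 2 *
      Real.exp (3 * t / 2) ≤ Real.exp (8 + 9 * t) := by
    calc 6 * 4 ^ t * (4 / c * (2 * Real.pi) ^ ((t : ℝ) / 2) * Real.exp (t / 2)) ^ 2 *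
          Real.exp (3 * t / 2)
        ≤ Real.exp (4 + 2 * t) * (Real.exp (2 + t) * Real.exp t * Real.exp (t / 2)) ^ 2 *
          Real.exp (3 * t / 2) := by
          apply mul_le_mul_of_nonneg_right _ (Real.exp_pos _).le
          apply mul_le_mul h34 _ (by positivity) (by positivity)
          apply pow_le_pow_left₀ (by positivity) hin
      _ = Real.exp (8 + 8.5 * t) := by
          rw [← Real.exp_add, ← Real.exp_add, sq, ← Real.exp_add, ← Real.exp_add, ← Real.exp_add]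
          congr 1
          ring
      _ ≤ Real.exp (8 + 9 * t) := by
          apply Real.exp_le_exp.2
          linarith only [ht0]
  refine hfin.trans ?_
  have h2N : (2 : ℝ) ^ N = Real.exp (N * Real.log 2) := by
    rw [mul_comm, ← Real.rpow_def_of_pos (by norm_num), Real.rpow_natCast]
  rw [h2N]
  apply Real.exp_le_exp.2
  have hl2 := Real.log_two_gt_d9
  have : (N : ℝ) * (1 / 2) ≤ N * Real.log 2 := by
    apply mul_le_mul_of_nonneg_left _ (by (clear * -; positivity))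
    linarith only [hl2]
  linarith only [this, ht8, hN63]

/-- numeric facts for PART C -/
theorem numC (c : ℝ) (hc : 0 < c) : ∃ t₀ : ℕ, 1 ≤ t₀ ∧ ∀ t ≥ t₀,
    Real.exp (-(2 * (t : ℝ) ^ 5)) < c * (1 / (t : ℝ) ^ 2) ^ t * Real.exp (-(2 * (t : ℝ))) ∧
    ∀ N n : ℕ, N + t = n → Real.exp ((t : ℝ) ^ 3) ≤ n →
      2 ≤ n ∧ 2 * ((1 + 1 / (n : ℝ)) / (1 - 1 / (n : ℝ))) ^ 2 ≤ 3 ∧
      1 / 2 ≤ Real.exp (-((2 * (1 / (n : ℝ)) + (1 / (n : ℝ)) ^ 2) * t)) ∧
      6 * 4 ^ t * (4 / c * (2 * Real.pi) ^ ((t : ℝ) / 2) * Real.exp (t / 2)) ^ 2 *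
        Real.exp (3 * t / 2) ≤ 2 ^ N := by
  refine ⟨max 8 ⌈|Real.log c|⌉₊, le_trans (by norm_num) (le_max_left _ _), ?_⟩
  intro t ht
  have ht8 : 8 ≤ t := (le_max_left _ _).trans ht
  have htr : (8 : ℝ) ≤ t := by exact_mod_cast ht8
  have hlogc : |Real.log c| ≤ t :=
    (Nat.le_ceil _).trans (by exact_mod_cast (le_max_right _ _).trans ht)
  rw [abs_le] at hlogc
  refine ⟨?_, ?_⟩
  · refine (ball_num_a c t htr t rfl hc hlogc.1).trans_le ?_
    have h5 : c / t ≤ c := div_le_self hc.le (by linarith only [htr])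
    gcongr
  intro N n hNn hexp
  have h3 : (t : ℝ) ^ 3 + 1 ≤ n := (Real.add_one_le_exp _).trans hexp
  have ht2 : 64 ≤ (t : ℝ) ^ 2 := by nlinarith only [htr]
  have h4 : 64 * (t : ℝ) ≤ n := by
    have h5 : (t : ℝ) ^ 3 = (t : ℝ) ^ 2 * t := by ring
    have h6 : 64 * (t : ℝ) ≤ (t : ℝ) ^ 2 * t := by gcongr
    linarith only [h3, h6]
  have hnpos : (0 : ℝ) < n := by linarith only [h4, htr]
  obtain ⟨h7, -, -⟩ := ball_num_b n t 2 htr h4 (by norm_num) le_rfl
  refine ⟨?_, h7, ?_, ?_⟩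
  · have : (2 : ℝ) ≤ n := by linarith only [htr, h4]
    exact_mod_cast this
  · have h8 := Real.add_one_le_exp (-((2 * (1 / (n : ℝ)) + (1 / (n : ℝ)) ^ 2) * t))
    have h9 : (1 / (n : ℝ)) * t ≤ 1 / 64 := by
      rw [one_div_mul_eq_div, div_le_iff₀ hnpos]
      linarith only [h4]
    have h10 : (1 / (n : ℝ)) ≤ 1 := by
      rw [div_le_one hnpos]
      linarith only [h4, htr]
    have h11 : (1 / (n : ℝ)) ^ 2 * t ≤ (1 / (n : ℝ)) * t := by
      have h12 : (1 / (n : ℝ)) ^ 2 ≤ 1 / (n : ℝ) := by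
        rw [sq]
        exact mul_le_of_le_one_right (by positivity) h10
      exact mul_le_mul_of_nonneg_right h12 (by linarith only [htr])
    have h12 : (2 * (1 / (n : ℝ)) + (1 / (n : ℝ)) ^ 2) * t ≤ 3 / 64 := by
      have e : (2 * (1 / (n : ℝ)) + (1 / (n : ℝ)) ^ 2) * t =
          2 * ((1 / (n : ℝ)) * t) + (1 / (n : ℝ)) ^ 2 * t := by ring
      rw [e]
      linarith only [h9, h11]
    linarith only [h8, h12]
  · refine numC_pow c hc t N ht8 hlogc.1 ?_
    have hNr : (N : ℝ) = n - t := by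
      rw [← hNn]
      push_cast
      ring
    rw [hNr]
    linarith only [h4]

theorem stmtC_of_pick (hP : StmtPick) : StmtC := by
  obtain ⟨c, hc, t₁, hpick⟩ := hP
  obtain ⟨t₂, hslice⟩ := slices_of_kernel2 c hc
  obtain ⟨t₃, ht₃, hnum⟩ := numC c hc
  refine ⟨24 / c, by positivity, max t₁ (max t₂ t₃), ?_⟩
  intro t ht N n hNn hexp K₀ hK₀c hK₀k hK₀i
  have ht1 : t ≥ t₁ := (le_max_left _ _).trans ht
  have ht2 : t ≥ t₂ := (le_max_left _ _).trans ((le_max_right _ _).trans ht)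
  have ht3 : t ≥ t₃ := (le_max_right _ _).trans ((le_max_right _ _).trans ht)
  have ht1' : 1 ≤ t := ht₃.trans ht3
  have ht0 : (0 : ℝ) < t := by exact_mod_cast ht1'
  obtain ⟨hbig, hnum2⟩ := hnum t ht3
  obtain ⟨hn2, hE3, hexph, hpow⟩ := hnum2 N n hNn hexp
  -- the position with identity moments
  obtain ⟨A₁, hA₁, hiso⟩ := exists_isotropic K₀ hK₀c hK₀k hK₀i
  set K₁ : Set (Fin (N + t) → ℝ) := {x | A₁.mulVec x ∈ K₀} with hK₁
  have hA₁u : IsUnit A₁.det := isUnit_iff_ne_zero.2 hA₁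
  have hK₁c : Convex ℝ K₁ := by
    intro x hx y hy a b ha hb hab
    have h1 := hK₀c hx hy ha hb hab
    rw [← Matrix.mulVec_smul, ← Matrix.mulVec_smul, ← Matrix.mulVec_add] at h1
    exact h1
  have hK₁k : IsCompact K₁ := by
    have e : K₁ = (fun y => A₁⁻¹.mulVec y) '' K₀ := by
      ext x
      constructor
      · intro hx
        refine ⟨_, hx, ?_⟩
        simp only
        rw [Matrix.mulVec_mulVec, Matrix.nonsing_inv_mul A₁ hA₁u, Matrix.one_mulVec]
      · rintro ⟨y, hy, rfl⟩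
        rw [hK₁, Set.mem_ofPred_eq, Matrix.mulVec_mulVec, Matrix.mul_nonsing_inv A₁ hA₁u,
          Matrix.one_mulVec]
        exact hy
    rw [e]
    exact hK₀k.image (Continuous.matrix_mulVec continuous_const continuous_id)
  have hvolK₀ : 0 < volume K₀ :=
    lt_of_lt_of_le (isOpen_interior.measure_pos volume hK₀i) (measure_mono interior_subset)
  have hvolK₁ : 0 < volume K₁ := by
    have h1 := volume_affine K₀ A₁ 0 hA₁
    simp only [add_zero] at h1
    rw [h1] at hvolK₀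
    rw [pos_iff_ne_zero]
    intro h0
    rw [← hK₁, h0, mul_zero] at hvolK₀
    exact lt_irrefl _ hvolK₀
  -- the projection
  obtain ⟨G, hG⟩ := hpick t ht1 (N + t) (by rw [hNn]; exact hexp) K₁ hK₁c hK₁k hvolK₁ hiso
  have hGs := surj_of_kernel2 c ht1' K₁ hK₁k hvolK₁ G hbig (by
    intro b hb
    refine le_trans (le_of_eq ?_) (hG b hb.le)
    rw [hb, max_eq_left (by linarith only [ht0])])
  obtain ⟨A₂, hA₂, hGA⟩ := exists_coords G hGs
  set K₂ : Set ((Fin N → ℝ) × (Fin t → ℝ)) := {q | A₂.mulVec (Fin.append q.1 q.2) ∈ K₁} with hK₂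
  have haff₂ : AffEq K₀ K₂ := by
    refine ⟨A₁ * A₂, 0, ?_, ?_⟩
    · rw [Matrix.det_mul]
      exact mul_ne_zero hA₁ hA₂
    · ext q
      simp only [hK₂, hK₁, Set.mem_ofPred_eq, add_zero, Matrix.mulVec_mulVec]
  have hK₂c : Convex ℝ K₂ := haff₂.convex hK₀c
  have hK₂k : IsCompact K₂ := haff₂.compact hK₀k
  have hvt := volume_transfer K₁ A₂ hA₂
  rw [← hK₂] at hvt
  have hvolK₂ : 0 < volume K₂ := by
    rw [pos_iff_ne_zero]
    intro h0
    rw [hvt, h0, mul_zero] at hvolK₁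
    exact lt_irrefl _ hvolK₁
  have hdet2 : 0 < |A₂.det| := abs_pos.2 hA₂
  have hvr : (volume K₁).toReal = |A₂.det| * (volume K₂).toReal := by
    rw [hvt, ENNReal.toReal_mul, ENNReal.toReal_ofReal hdet2.le]
  have hker : ∀ b : Fin t → ℝ, ∑ i, b i ^ 2 ≤ 4 * t →
      c * (volume K₂).toReal * (1 / (t : ℝ) ^ 2) ^ t *
          Real.exp (-(max (∑ i, b i ^ 2) t) / 2) ≤
        ∫ q in K₂, Real.exp (-(∑ i, (q.2 i - b i) ^ 2) * (t : ℝ) ^ 4 / 2) := by
    intro b hb
    have h1 := kernel_transfer K₁ hK₁k A₂ hA₂ G hGA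
      (fun y => Real.exp (-(∑ i, (y i - b i) ^ 2) * (t : ℝ) ^ 4 / 2)) (by (clear * -; fun_prop))
    rw [← hK₂] at h1
    rw [h1, ← div_eq_inv_mul, le_div_iff₀ hdet2]
    refine le_trans (le_of_eq ?_) (hG b hb)
    rw [hvr]
    ring
  -- slices over the larger ball
  have hsl := hslice t ht2 N K₂ hK₂c hK₂k hvolK₂ hker
  set W : ℝ := 4 / c * (2 * Real.pi) ^ ((t : ℝ) / 2) * Real.exp (t / 2) with hW
  have hpi : (0 : ℝ) < (2 * Real.pi) ^ ((t : ℝ) / 2) := by
    apply Real.rpow_pos_of_pos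
    positivity
  have hW0 : 0 < W := by
    rw [hW]
    positivity
  have hWinv : ∀ β : ℝ, c / 4 * (2 * Real.pi) ^ (-(t : ℝ) / 2) * Real.exp (-β / 2) =
      W⁻¹ * Real.exp ((t - β) / 2) := by
    intro β
    have e1 : Real.exp (-β / 2) = Real.exp (-(t / 2 : ℝ)) * Real.exp ((t - β) / 2) := by
      rw [← Real.exp_add]
      congr 1
      ring
    rw [hW, mul_inv, mul_inv, ← Real.exp_neg, ← Real.rpow_neg (by positivity), inv_div, e1]
    have e2 : -(t : ℝ) / 2 = -((t : ℝ) / 2) := by ring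
    rw [e2]
    ring
  have hvK₂r : 0 < (volume K₂).toReal := ENNReal.toReal_pos hvolK₂.ne' hK₂k.measure_lt_top.ne
  set g₂ : ℝ := W⁻¹ * (volume K₂).toReal with hg₂
  have hg₂0 : 0 < g₂ := by (clear * - hW0 hvK₂r; positivity)
  have hslE : ∀ b : Fin t → ℝ, ∑ i, b i ^ 2 ≤ 3 * t →
      ENNReal.ofReal (g₂ * Real.exp ((t - max (∑ i, b i ^ 2) t) / 2)) ≤
        volume {x : Fin N → ℝ | (x, b) ∈ K₂} := by
    intro b hb
    have h1 := hsl b hb
    rw [hWinv] at h1
    rw [ENNReal.ofReal_le_iff_le_toReal]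
    · refine le_trans (le_of_eq ?_) h1
      rw [hg₂]
      ring
    · exact (slc_lt_top hK₂k b).ne
  have hE'0 : (0 : ℝ) < 3 * t := by linarith only [ht0]
  have hR : Real.sqrt (3 * t) ^ 2 = 3 * t := Real.sq_sqrt hE'0.le
  obtain ⟨B, S, w, hB, hbd, hsimp⟩ := normalize_slices ht1' K₂ hK₂c hK₂k (Real.sqrt (3 * t))
    (Real.sqrt_pos.2 hE'0) (by
      intro b hb
      rw [hR] at hb
      exact lt_of_lt_of_le (ENNReal.ofReal_pos.2 (mul_pos hg₂0 (Real.exp_pos _))) (hslE b hb))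
  rw [hR] at hbd
  have haff₄ := haff₂.fiber B hB S w
  set K₄ : Set ((Fin N → ℝ) × (Fin t → ℝ)) := {q | (B.mulVec q.1 + S.mulVec q.2 + w, q.2) ∈ K₂}
    with hK₄
  have hK₄c : Convex ℝ K₄ := haff₄.convex hK₀c
  have hK₄k : IsCompact K₄ := haff₄.compact hK₀k
  have hdetB : 0 < |B.det| := abs_pos.2 hB
  have hvf := volume_fiber hK₂k B hB S w hK₄k
  rw [← hK₄] at hvf
  set g₄ : ℝ := g₂ / |B.det| with hg₄
  have hg₄0 : 0 < g₄ := by (clear * - hg₂0 hdetB; positivity)
  have hg24 : g₂ = |B.det| * g₄ := by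
    rw [hg₄]
    (clear * - hB hg₂0; field_simp)
  have hlow : ∀ b : Fin t → ℝ, ∑ i, b i ^ 2 ≤ 3 * t →
      ENNReal.ofReal (g₄ * Real.exp ((t - max (∑ i, b i ^ 2) t) / 2)) ≤
        volume {x : Fin N → ℝ | (x, b) ∈ K₄} := by
    intro b hb
    have h1 := hslE b hb
    have h2 := slc_fiber K₂ B hB S w b
    rw [← hK₄] at h2
    unfold slc at h2
    rw [h2, hg24, mul_assoc, ENNReal.ofReal_mul hdetB.le] at h1
    rwa [ENNReal.mul_le_mul_iff_right (by simpa only [ne_eq, ENNReal.ofReal_eq_zero, abs_nonpos_iff] using hB) ENNReal.ofReal_ne_top] at h1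
  have hvolK₄ : volume K₄ = ENNReal.ofReal (W * g₄) := by
    have h1 : (volume K₂).toReal = |B.det| * (volume K₄).toReal := by
      rw [hvf, ENNReal.toReal_mul, ENNReal.toReal_ofReal hdetB.le]
    have h2 : W * g₄ = (volume K₄).toReal := by
      rw [hg₄, hg₂, h1]
      (clear * - hW0 hB; field_simp)
    rw [h2, ENNReal.ofReal_toReal hK₄k.measure_lt_top.ne]
  obtain ⟨T, hT, hTinc⟩ := shrink2 ht1' hn2 hNn K₄ hK₄c hK₄k g₄ W hE3 hexph hg₄0
    hW0.le hpow hbd hsimp hlow hvolK₄.le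
  obtain ⟨A₀, v₀, hA₀, hKeq⟩ := haff₄
  refine ⟨A₀, v₀, T, g₄ / 6, hA₀, by (clear * - hg₄0; positivity), hT, ?_, ?_⟩
  · have h1 := volume_append {x : Fin (N + t) → ℝ | A₀.mulVec x + v₀ ∈ K₀}
    have h2 : {q : (Fin N → ℝ) × (Fin t → ℝ) |
        Fin.append q.1 q.2 ∈ {x : Fin (N + t) → ℝ | A₀.mulVec x + v₀ ∈ K₀}} = K₄ := hKeq.symm
    rw [← h1, h2, hvolK₄]
    apply ENNReal.ofReal_le_ofReal
    have e : (2 * Real.pi * Real.exp 1) ^ ((t : ℝ) / 2) =
        (2 * Real.pi) ^ ((t : ℝ) / 2) * Real.exp (t / 2) := by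
      rw [Real.mul_rpow (by positivity) (Real.exp_pos _).le, ← Real.exp_mul, one_mul]
    rw [e, hW]
    apply le_of_eq
    ring
  · intro b hb a ha x hx x' hx'
    have h1 := hTinc b hb a ha x hx x' hx'
    rw [hKeq] at h1
    exact h1

end Vale.Agent.P230.H691
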