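import Vale.Agent.P230.H691.Close2
import Vale.Agent.P230.H706.C1

/-!
# `Θ_L(n) ≤ C n log n` from THEOREM G
-/

namespace Vale.Agent.P230.H691

open MeasureTheory Finset Vale.Agent.P230.D

theorem stmtC : StmtC := stmtC_of_pick Vale.Agent.P230.C1.pick_G'

theorem thetaL_log_of_G (hG : StmtG) :
    ∃ C : ℝ, 0 < C ∧ ∀ n : ℕ, 2 ≤ n → ThetaL n ≤ ENNReal.ofReal (C * n * Real.log n) :=
  thetaL_log_of hG stmtC

end Vale.Agent.P230.H691
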