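import Vale.Agent.P230.D.Stmt
import Vale.Agent.P230.G.Interf

/-!
# G8b: from `StmtG8a` to `StmtG`
-/

namespace Vale.Agent.P230.H691

open Finset Vale.Agent.P230.G

/-- an enumeration of a finite type along which a level function is monotone -/
theorem exists_sorted {ι : Type} [Fintype ι] (lev : ι → ℕ) {t : ℕ} (h : Fintype.card ι = t) :
    ∃ e : Fin t ≃ ι, ∀ a b : Fin t, a ≤ b → lev (e a) ≤ lev (e b) := by
  classical
  set e₀ : Fin t ≃ ι := (Fintype.equivFinOfCardEq h).symm with he₀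
  refine ⟨(Tuple.sort (fun i => lev (e₀ i))).trans e₀, fun a b hab => ?_⟩
  have := Tuple.monotone_sort (fun i => lev (e₀ i)) hab
  exact this

theorem treeLike_reindex {ι : Type} [Fintype ι] [DecidableEq ι] {lev : ι → ℕ} {t : ℕ}
    (e : Fin t ≃ ι) (he : ∀ a b : Fin t, a ≤ b → lev (e a) ≤ lev (e b)) {D : ℝ}
    {P : Finset (ι → ℤ)} (hP : G.TreeLike lev D P) :
    Vale.Agent.P230.D.TreeLike ⌊max D 0⌋₊ (P.image (fun (z : ι → ℤ) (i : Fin t) => z (e i))) := by
  classical
  intro a z hz z' hz' z'' hz'' h1 h2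
  obtain ⟨w, hw, rfl⟩ := mem_image.1 hz
  obtain ⟨w', hw', rfl⟩ := mem_image.1 hz'
  obtain ⟨w'', hw'', rfl⟩ := mem_image.1 hz''
  have hkey : ∀ b : ι, lev (e a) < lev b → a < e.symm b := by
    intro b hb
    by_contra hcon
    have h3 := he _ _ (not_lt.1 hcon)
    rw [Equiv.apply_symm_apply] at h3
    omega
  obtain ⟨h3, h4⟩ := hP (e a) w hw w' hw' w'' hw'' (by
    intro b hb
    have := h1 (e.symm b) (hkey b hb)
    simpa only [Equiv.apply_symm_apply] using this) (by
    intro b hb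
    have := h2 (e.symm b) (hkey b hb)
    simpa only [Equiv.apply_symm_apply] using this)
  refine ⟨h3, ?_⟩
  have h5 : ((|w (e a) - w' (e a)| : ℤ) : ℝ) ≤ max D 0 := by
    rw [Int.cast_abs]
    exact h4.trans (le_max_left _ _)
  have h6 : |w (e a) - w' (e a)| ≤ ⌊max D 0⌋ := Int.le_floor.2 h5
  have h7 : ((⌊max D 0⌋₊ : ℕ) : ℤ) = ⌊max D 0⌋ := Int.natCast_floor_eq_floor (le_max_right _ _)
  rw [h7]
  exact h6

theorem exp_le_quad {x : ℝ} (h0 : 0 ≤ x) (h1 : x ≤ 1) : Real.exp x ≤ 1 + x + x ^ 2 := by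
  have h := Real.abs_exp_sub_one_sub_id_le (x := x) (by rw [abs_of_nonneg h0]; exact h1)
  have := (abs_le.1 h).2
  linarith only [this]

/-- the numbers behind the scaling: `s = √t`, `κ ∈ [L+1, L+2]`, `r = |x|²` -/
theorem scale_num {L κ s r : ℝ} (hL : 1 ≤ L) (hκ1 : L + 1 ≤ κ) (hκ2 : κ ≤ L + 2)
    (hs : 8 * (L + 2) ^ 2 ≤ s) (hr1 : s ^ 2 - L * s ≤ r) (hr2 : r ≤ s ^ 2 + L * s) :
    s ^ 2 ≤ Real.exp (2 * (κ / s)) * r ∧ Real.exp (2 * (κ / s)) * r ≤ 2 * s ^ 2 ∧
      (Real.exp (2 * (κ / s)) - 1) * r / 2 ≤ κ * s + 5 * (L + 2) ^ 3 := by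
  have hL2 : 9 ≤ (L + 2) ^ 2 := by nlinarith only [hL]
  have hs0 : 0 < s := by nlinarith only [hL2, hs]
  have hκ0 : 0 < κ := by linarith only [hL, hκ1]
  set τ : ℝ := κ / s with hτ
  have hτ0 : 0 < τ := by positivity
  have hτs : τ * s = κ := by
    rw [hτ]
    field_simp
  have hκs : 8 * (L + 2) * κ ≤ s := by
    have : 8 * (L + 2) * κ ≤ 8 * (L + 2) * (L + 2) := by
      apply mul_le_mul_of_nonneg_left hκ2 (by linarith only [hL])
    nlinarith only [this, hs]
  have hτ1 : 8 * (L + 2) * τ ≤ 1 := by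
    rw [hτ, mul_div_assoc', div_le_one hs0]
    exact hκs
  have hτ2 : 2 * τ ≤ 1 := by nlinarith only [hτ1, hL, hτ0]
  have hsL : L ≤ s := by nlinarith only [hs, hL2, hL]
  have hr0 : 0 ≤ r := by
    have : 0 ≤ s ^ 2 - L * s := by nlinarith only [hsL, hs0]
    linarith only [this, hr1]
  have he1 : 1 + 2 * τ ≤ Real.exp (2 * τ) := by
    have := Real.add_one_le_exp (2 * τ)
    linarith only [this]
  have he2 : Real.exp (2 * τ) ≤ 1 + 2 * τ + 4 * τ ^ 2 := by
    have := exp_le_quad (x := 2 * τ) (by linarith only [hτ0]) hτ2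
    linarith only [this]
  have hss : 8 * (L + 2) ^ 2 * s ≤ s ^ 2 := by nlinarith only [hs, hs0]
  refine ⟨?_, ?_, ?_⟩
  · have h1 : (1 + 2 * τ) * (s ^ 2 - L * s) ≤ Real.exp (2 * τ) * r := by
      apply mul_le_mul he1 hr1 _ (Real.exp_pos _).le
      nlinarith only [hsL, hs0]
    have h2 : (1 + 2 * τ) * (s ^ 2 - L * s) = s ^ 2 + (2 * κ - L) * s - 2 * κ * L := by
      have e1 : τ * s ^ 2 = κ * s := by rw [← hτs]; ring
      have e2 : τ * (L * s) = κ * L := by rw [← hτs]; ring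
      calc (1 + 2 * τ) * (s ^ 2 - L * s) = s ^ 2 - L * s + 2 * (τ * s ^ 2) - 2 * (τ * (L * s)) := by ring
        _ = _ := by rw [e1, e2]; ring
    rw [h2] at h1
    have h3 : 2 * κ * L ≤ (2 * κ - L) * s := by
      have h4 : L + 2 ≤ 2 * κ - L := by linarith only [hκ1]
      have h5 : (L + 2) * s ≤ (2 * κ - L) * s := mul_le_mul_of_nonneg_right h4 hs0.le
      have h6 : 2 * κ * L ≤ 2 * (L + 2) * (L + 2) := by nlinarith only [hκ2, hL, hκ0]
      have h7 : 2 * (L + 2) * (L + 2) ≤ (L + 2) * s := by nlinarith only [hs, hL]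
      linarith only [h5, h6, h7]
    linarith only [h1, h3]
  · have h1 : Real.exp (2 * τ) * r ≤ (1 + 4 * τ) * (s ^ 2 + L * s) := by
      apply mul_le_mul _ hr2 hr0 (by linarith only [hτ0])
      nlinarith only [he2, hτ2, hτ0]
    have e1 : τ * s ^ 2 = κ * s := by rw [← hτs]; ring
    have e2 : τ * (L * s) = κ * L := by rw [← hτs]; ring
    have h2 : (1 + 4 * τ) * (s ^ 2 + L * s) = s ^ 2 + L * s + 4 * (κ * s) + 4 * (κ * L) := by
      calc (1 + 4 * τ) * (s ^ 2 + L * s) = s ^ 2 + L * s + 4 * (τ * s ^ 2) + 4 * (τ * (L * s)) := by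
            ring
        _ = _ := by rw [e1, e2]
    rw [h2] at h1
    have h3 : 4 * (κ * L) ≤ 4 * (κ * s) := by
      have := mul_le_mul_of_nonneg_left hsL hκ0.le
      linarith only [this]
    have h4 : 8 * (κ * s) ≤ 8 * ((L + 2) * s) := by
      have := mul_le_mul_of_nonneg_right hκ2 hs0.le
      linarith only [this]
    have h5 : (L + 8 * (L + 2)) * s ≤ 8 * (L + 2) ^ 2 * s := by
      apply mul_le_mul_of_nonneg_right _ hs0.le
      nlinarith only [hL]
    linarith only [h1, h3, h4, h5, hss]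
  · have h1 : (Real.exp (2 * τ) - 1) * r ≤ (2 * τ + 4 * τ ^ 2) * (s ^ 2 + L * s) := by
      apply mul_le_mul _ hr2 hr0 (by positivity)
      linarith only [he2]
    have h2 : (2 * τ + 4 * τ ^ 2) * (s ^ 2 + L * s) =
        2 * κ * s + 2 * κ * L + 4 * κ ^ 2 + 4 * κ ^ 2 * (L / s) := by
      rw [hτ]
      field_simp
      ring
    rw [h2] at h1
    have h3 : L / s ≤ 1 := by
      rw [div_le_one hs0]
      exact hsL
    have h4 : 4 * κ ^ 2 * (L / s) ≤ 4 * κ ^ 2 * 1 := mul_le_mul_of_nonneg_left h3 (by positivity)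
    have h5 : κ ^ 2 ≤ (L + 2) ^ 2 := pow_le_pow_left₀ hκ0.le hκ2 2
    have h6 : κ * L ≤ (L + 2) * (L + 2) := by nlinarith only [hκ2, hL, hκ0]
    have h7 : 10 * (L + 2) ^ 2 ≤ 10 * (L + 2) ^ 3 := by
      have : (L + 2) ^ 3 = (L + 2) ^ 2 * (L + 2) := by ring
      rw [this]
      nlinarith only [hL, hL2]
    nlinarith only [h1, h4, h5, h6, h7]

theorem stmtG_of_G8a (h8 : StmtG8a) : D.StmtG := by
  obtain ⟨c, L, T0, hc, hL, h8⟩ := h8
  set C₁ : ℝ := 5 * (L + 2) ^ 3 with hC₁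
  -- large `m`
  have htend : Filter.Tendsto (fun m : ℝ => Real.log m) Filter.atTop Filter.atTop :=
    Real.tendsto_log_atTop
  set K : ℝ := C₁ - Real.log c with hK
  have ev1 : ∀ᶠ x : ℝ in Filter.atTop, (x + K) ^ (1.6 : ℝ) ≤ x ^ 2 ∧
      max (max T0 1) ((8 * (L + 2) ^ 2) ^ 2) ≤ x + K := by
    have h1 : ∀ᶠ x : ℝ in Filter.atTop, (2 : ℝ) ^ (1.6 : ℝ) ≤ x ^ (0.4 : ℝ) :=
      (tendsto_rpow_atTop (by norm_num : (0 : ℝ) < 0.4)).eventually_ge_atTop _
    filter_upwards [h1, Filter.eventually_ge_atTop (1 : ℝ), Filter.eventually_ge_atTop K,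
      Filter.eventually_ge_atTop (max (max T0 1) ((8 * (L + 2) ^ 2) ^ 2) - K)] with x hx1 hx2 hx3 hx4
    have hx0 : 0 < x := by linarith only [hx2]
    have hxK : 0 ≤ x + K := by
      have h5 : (1 : ℝ) ≤ max (max T0 1) ((8 * (L + 2) ^ 2) ^ 2) :=
        (le_max_right _ _).trans (le_max_left _ _)
      linarith only [hx4, h5]
    refine ⟨?_, by linarith only [hx4]⟩
    calc (x + K) ^ (1.6 : ℝ) ≤ (2 * x) ^ (1.6 : ℝ) :=
          Real.rpow_le_rpow hxK (by linarith only [hx3]) (by norm_num)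
      _ = 2 ^ (1.6 : ℝ) * x ^ (1.6 : ℝ) := Real.mul_rpow (by norm_num) hx0.le
      _ ≤ x ^ (0.4 : ℝ) * x ^ (1.6 : ℝ) := by gcongr
      _ = x ^ 2 := by
          rw [← Real.rpow_add hx0, ← Real.rpow_natCast]
          norm_num
  have ev2 := htend.eventually ev1
  obtain ⟨m₀, hm₀⟩ := Filter.eventually_atTop.1 (ev2.and (Filter.eventually_ge_atTop (1 : ℝ)))
  refine ⟨Real.exp C₁ / c, by positivity, m₀, fun m hm => ?_⟩
  obtain ⟨⟨hm1, hm2⟩, hm3⟩ := hm₀ m hm
  have hm0 : 0 < m := by linarith only [hm3]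
  set T : ℝ := Real.log m + K with hT
  have hT0 : T0 ≤ T := ((le_max_left _ _).trans (le_max_left _ _)).trans hm2
  have hT1 : 1 ≤ T := ((le_max_right _ _).trans (le_max_left _ _)).trans hm2
  have hTL : (8 * (L + 2) ^ 2) ^ 2 ≤ T := (le_max_right _ _).trans hm2
  have hexpT : Real.exp T = Real.exp C₁ / c * m := by
    rw [hT, hK, Real.exp_add, Real.exp_sub, Real.exp_log hm0, Real.exp_log hc]
    ring
  obtain ⟨t, D, v, ⟨ι, _, _, lev, M, B, hcard, hB, hM, hUp, hv⟩, ht1, ht2, hD, hv1, hv2⟩ := h8 T hT0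
  have htT : (1 : ℝ) ≤ t := hT1.trans ht2
  have ht0 : (0 : ℝ) < t := by linarith only [htT]
  set s : ℝ := Real.sqrt t with hs
  have hs2 : s ^ 2 = t := Real.sq_sqrt ht0.le
  have hs0 : 0 < s := Real.sqrt_pos.2 ht0
  have hsbig : 8 * (L + 2) ^ 2 ≤ s := by
    apply Real.le_sqrt_of_sq_le
    exact hTL.trans ht2
  set κ : ℝ := (v - T) / s with hκ
  have hκs : κ * s = v - T := by
    rw [hκ]
    field_simp
  have hκ1 : L + 1 ≤ κ := by
    rw [hκ, le_div_iff₀ hs0]
    linarith only [hv1]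
  have hκ2 : κ ≤ L + 2 := by
    rw [hκ, div_le_iff₀ hs0]
    linarith only [hv2]
  set τ : ℝ := κ / s with hτ
  have hτt : τ * t = κ * s := by
    rw [hτ, ← hs2]
    field_simp
  obtain ⟨e, he⟩ := exists_sorted lev hcard
  set M' : Matrix ι ι ℝ := Real.exp τ • M with hM'
  set ML : Matrix (Fin t) (Fin t) ℝ := M'.submatrix e e with hML
  have hdet : ML.det = Real.exp (τ * t) * M.det := by
    rw [hML, Matrix.det_submatrix_equiv_self, hM', Matrix.det_smul, hcard, ← Real.exp_nat_mul]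
    congr 2
    ring
  have hMabs : 0 < |M.det| := abs_pos.2 hM
  have hdetabs : |ML.det| = Real.exp (τ * t) * |M.det| := by
    rw [hdet, abs_mul, abs_of_pos (Real.exp_pos _)]
  -- the volume
  have hpe : (0 : ℝ) < 2 * Real.pi * Real.exp 1 := by positivity
  have hVexp : (2 * Real.pi * Real.exp 1) ^ ((t : ℝ) / 2) = Real.exp v * |M.det| := by
    have h1 : v = (t : ℝ) * Real.log (Real.sqrt (2 * Real.pi * Real.exp 1)) -
        Real.log |M.det| := by
      rw [← hv, logV, hcard]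
    rw [h1, Real.exp_sub, Real.exp_log hMabs, div_mul_cancel₀ _ hMabs.ne',
      Real.log_sqrt hpe.le, Real.rpow_def_of_pos hpe]
    congr 1
    ring
  have hVT : (2 * Real.pi * Real.exp 1) ^ ((t : ℝ) / 2) = Real.exp T * |ML.det| := by
    rw [hVexp, hdetabs, ← mul_assoc, ← Real.exp_add]
    congr 2
    rw [hτt, hκs]
    ring
  refine ⟨t, ⌊max D 0⌋₊, ML, by exact_mod_cast htT, ht1.trans hm1, ?_, ?_, ?_, ?_⟩
  · exact (Nat.floor_le (le_max_right _ _)).trans (max_le hD (Real.exp_pos _).le)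
  · rw [hdet]
    exact mul_ne_zero (Real.exp_pos _).ne' hM
  · rw [hVT, hexpT]
  -- the points
  intro y'
  set y : ι → ℝ := fun i => Real.exp (-τ) * y' (e.symm i) with hy
  obtain ⟨P, w, hPt, hPw, hPX⟩ := hUp y
  have hsum : c ≤ ∑ z ∈ P, w z := by
    have h1 := hPX 1 (fun _ => 1) (by norm_num) (fun _ => by norm_num) (by
      intro z J _ _
      simp only [sum_const, card_powerset, nsmul_eq_mul, mul_one, Nat.cast_pow, Nat.cast_ofNat,
        one_mul, le_refl])
    simpa only [mul_one] using h1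
  -- positions
  have hpos : ∀ z : ι → ℤ, ∀ i : Fin t,
      y' i + ML.mulVec (fun a => ((z (e a) : ℤ) : ℝ)) i = Real.exp τ * pos M y z (e i) := by
    intro z i
    have h1 : ML.mulVec (fun a => ((z (e a) : ℤ) : ℝ)) i =
        Real.exp τ * M.mulVec (fun a => (z a : ℝ)) (e i) := by
      have h2 : ML.mulVec (fun a => ((z (e a) : ℤ) : ℝ)) =
          M'.mulVec ((fun a => ((z (e a) : ℤ) : ℝ)) ∘ e.symm) ∘ e := by
        rw [hML]
        exact Matrix.submatrix_mulVec_equiv _ _ _ _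
      rw [h2]
      have h3 : (fun a => ((z (e a) : ℤ) : ℝ)) ∘ e.symm = fun a => (z a : ℝ) := by
        funext a
        simp only [Function.comp_apply, Equiv.apply_symm_apply]
      rw [h3, Function.comp_apply, hM', Matrix.smul_mulVec]
      rfl
    rw [h1, pos, hy]
    simp only [Equiv.symm_apply_apply]
    rw [mul_add, ← mul_assoc, ← Real.exp_add, add_neg_cancel, Real.exp_zero, one_mul]
  have hnsq : ∀ z : ι → ℤ,
      ∑ i : Fin t, (y' i + ML.mulVec (fun a => ((z (e a) : ℤ) : ℝ)) i) ^ 2 =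
        Real.exp (2 * τ) * nsq (pos M y z) := by
    intro z
    have h1 : ∑ i : Fin t, (y' i + ML.mulVec (fun a => ((z (e a) : ℤ) : ℝ)) i) ^ 2 =
        ∑ i : Fin t, Real.exp (2 * τ) * (pos M y z (e i)) ^ 2 := by
      refine Finset.sum_congr rfl fun i _ => ?_
      rw [hpos, mul_pow, ← Real.exp_nat_mul]
      norm_num
    rw [h1, ← Finset.mul_sum, nsq]
    congr 1
    exact Equiv.sum_comp e (fun i => (pos M y z i) ^ 2)
  have hnum : ∀ z ∈ P, (t : ℝ) ≤ Real.exp (2 * τ) * nsq (pos M y z) ∧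
      Real.exp (2 * τ) * nsq (pos M y z) ≤ 2 * t ∧
      (Real.exp (2 * τ) - 1) * nsq (pos M y z) / 2 ≤ κ * s + C₁ := by
    intro z hz
    obtain ⟨_, _, h3, h4⟩ := hPw z hz
    rw [hcard] at h3 h4
    have := scale_num (r := nsq (pos M y z)) hL hκ1 hκ2 hsbig (by rw [hs2]; exact h3)
      (by rw [hs2]; exact h4)
    rw [hs2] at this
    exact this
  have hinj : Function.Injective (fun (z : ι → ℤ) (i : Fin t) => z (e i)) := by
    intro z z' h
    funext i
    have := congrFun h (e.symm i)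
    simpa only [Equiv.apply_symm_apply] using this
  refine ⟨P.image (fun (z : ι → ℤ) (i : Fin t) => z (e i)), treeLike_reindex e he hPt, ?_, ?_⟩
  · intro z' hz'
    obtain ⟨z, hz, rfl⟩ := mem_image.1 hz'
    obtain ⟨h1, h2, _⟩ := hnum z hz
    constructor
    · rw [hnsq]
      exact h1
    · rw [hnsq]
      exact h2
  · rw [Finset.sum_image (fun z _ z' _ h => hinj h)]
    -- lower bound for one term
    have hterm : ∀ z ∈ P, Real.exp v * Real.exp (-(κ * s + C₁)) * w z ≤
        Vale.Agent.P230.D.prof t (fun i => y' i + ML.mulVec (fun a => ((z (e a) : ℤ) : ℝ)) i) := by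
      intro z hz
      obtain ⟨hw0, hw1, _, _⟩ := hPw z hz
      obtain ⟨_, _, h3⟩ := hnum z hz
      have h4 : Real.exp v * w z ≤ Real.exp ((t - nsq (pos M y z)) / 2) := by
        refine (mul_le_mul_of_nonneg_left hw1 (Real.exp_pos _).le).trans (le_of_eq ?_)
        rw [gw, hcard]
        have h5 : Real.exp v * |M.det| = (Real.sqrt (2 * Real.pi)) ^ t * Real.exp (t / 2) := by
          rw [← hVexp, Real.mul_rpow (by positivity) (Real.exp_pos _).le, ← Real.exp_mul, one_mul]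
          congr 1
          rw [Real.sqrt_eq_rpow, ← Real.rpow_natCast, ← Real.rpow_mul (by positivity)]
          congr 1
          ring
        have h6 : (Real.sqrt (2 * Real.pi)) ^ t * (Real.sqrt (2 * Real.pi))⁻¹ ^ t = 1 := by
          rw [← mul_pow, mul_inv_cancel₀ (by positivity), one_pow]
        calc Real.exp v * (|M.det| * (Real.sqrt (2 * Real.pi))⁻¹ ^ t *
              Real.exp (-nsq (pos M y z) / 2))
            = (Real.exp v * |M.det|) * (Real.sqrt (2 * Real.pi))⁻¹ ^ t *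
              Real.exp (-nsq (pos M y z) / 2) := by ring
          _ = ((Real.sqrt (2 * Real.pi)) ^ t * (Real.sqrt (2 * Real.pi))⁻¹ ^ t) *
              (Real.exp (t / 2) * Real.exp (-nsq (pos M y z) / 2)) := by
              rw [h5]
              ring
          _ = Real.exp ((t - nsq (pos M y z)) / 2) := by
              rw [h6, one_mul, ← Real.exp_add]
              congr 1
              ring
      calc Real.exp v * Real.exp (-(κ * s + C₁)) * w z
          = Real.exp (-(κ * s + C₁)) * (Real.exp v * w z) := by ring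
        _ ≤ Real.exp (-(κ * s + C₁)) * Real.exp ((t - nsq (pos M y z)) / 2) :=
            mul_le_mul_of_nonneg_left h4 (Real.exp_pos _).le
        _ = Real.exp (-(κ * s + C₁) + (t - nsq (pos M y z)) / 2) := (Real.exp_add _ _).symm
        _ ≤ _ := by
            unfold Vale.Agent.P230.D.prof
            apply Real.exp_le_exp.2
            rw [hnsq]
            linarith only [h3]
    calc m = Real.exp v * Real.exp (-(κ * s + C₁)) * c := by
          have h1 : Real.exp v * Real.exp (-(κ * s + C₁)) = Real.exp T * Real.exp (-C₁) := by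
            rw [← Real.exp_add, ← Real.exp_add]
            congr 1
            rw [hκs]
            ring
          rw [h1, hexpT, Real.exp_neg]
          field_simp
      _ ≤ Real.exp v * Real.exp (-(κ * s + C₁)) * ∑ z ∈ P, w z :=
          mul_le_mul_of_nonneg_left hsum (by positivity)
      _ = ∑ z ∈ P, Real.exp v * Real.exp (-(κ * s + C₁)) * w z := by rw [Finset.mul_sum]
      _ ≤ _ := Finset.sum_le_sum hterm

end Vale.Agent.P230.H691
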