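import Vale.Agent.P230.H691.Close3
import Vale.Agent.P230.H691.Conv
import Vale.Agent.P230.G.Tune

/-!
# `Θ_L(n) ≤ C n log n` from the block step statements
-/

namespace Vale.Agent.P230.H691

open MeasureTheory Finset Vale.Agent.P230.G

/-- everything except the block step (BS), the entropy bounds (G2 (f)) and the recursion (G7) -/
theorem thetaL_log_of_blocks (Hf : ℝ → ℕ → ℝ) (h1 : StmtBSlast Hf) (h2 : HBounds Hf)
    (h3 : StmtG7) :
    ∃ C : ℝ, 0 < C ∧ ∀ n : ℕ, 2 ≤ n → ThetaL n ≤ ENNReal.ofReal (C * n * Real.log n) :=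
  thetaL_log_of_G (stmtG_of_G8a (g8a Hf h1 h2 h3))

end Vale.Agent.P230.H691
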