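import Vale.Agent.P230.H691.Close4
import Vale.Agent.P230.G.Rec
import Vale.Agent.P230.BS.Final

/-!
# `Θ_L(n) ≤ C n log n` from the one-coordinate facts (G2)
-/

namespace Vale.Agent.P230.H691

/-- everything except block G2 -/
theorem thetaL_log_of_G2 (hG2 : Vale.Agent.P230.H852.S_G2F) :
    ∃ C : ℝ, 0 < C ∧ ∀ n : ℕ, 2 ≤ n → ThetaL n ≤ ENNReal.ofReal (C * n * Real.log n) :=
  thetaL_log_of_blocks _ (BS.bsLast hG2) (BS.hBounds hG2)
    (Vale.Agent.P230.G.g7 _ (BS.bsInt hG2) (BS.hBounds hG2))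

end Vale.Agent.P230.H691
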