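import Vale.Agent.P230.H691.Step

/-!
# Numerics of the last step and the final bound (part D5)
-/

namespace Vale.Agent.P230.H691

open MeasureTheory Finset Vale.Agent.P230.D

namespace Num

theorem growth {x : ℝ} (hx : 40 ≤ x) :
    (2 + x ^ 2) * Real.exp (x / 4) + x ≤ Real.exp x * x / 8 := by
  have h1 : Real.exp x = Real.exp (x / 4) * Real.exp (x / 4) ^ 3 := by
    rw [← Real.exp_nat_mul, ← Real.exp_add]
    congr 1
    push_cast
    ring
  have h2 : 1 + x / 4 ≤ Real.exp (x / 4) := by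
    have := Real.add_one_le_exp (x / 4)
    linarith only [this]
  have h3 : (x / 4) ^ 3 ≤ Real.exp (x / 4) ^ 3 :=
    pow_le_pow_left₀ (by linarith only [hx]) (by linarith only [h2]) 3
  have h4 : 1 ≤ Real.exp (x / 4) := by linarith only [h2, hx]
  have h5 : 2 + x ^ 2 + x ≤ (x / 4) ^ 3 * x / 8 := by
    have : (x / 4) ^ 3 * x / 8 = x ^ 2 * x ^ 2 / 512 := by ring
    rw [this]
    have h6 : 1600 ≤ x ^ 2 := by nlinarith only [hx]
    have h7 : 1600 * x ^ 2 ≤ x ^ 2 * x ^ 2 := by nlinarith only [h6]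
    nlinarith only [hx, h7, h6]
  calc (2 + x ^ 2) * Real.exp (x / 4) + x
      ≤ (2 + x ^ 2) * Real.exp (x / 4) + x * Real.exp (x / 4) := by
        nlinarith only [h4, hx]
    _ = Real.exp (x / 4) * (2 + x ^ 2 + x) := by ring
    _ ≤ Real.exp (x / 4) * (Real.exp (x / 4) ^ 3 * x / 8) := by
        apply mul_le_mul_of_nonneg_left _ (Real.exp_pos _).le
        refine h5.trans ?_
        have : (x / 4) ^ 3 * x ≤ Real.exp (x / 4) ^ 3 * x :=
          mul_le_mul_of_nonneg_right h3 (by linarith only [hx])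
        linarith only [this]
    _ = Real.exp x * x / 8 := by
        rw [h1]
        ring

theorem union2 {x : ℝ} (hx : 40 ≤ x) {N t n : ℕ} (hxn : Real.log n = x) (hn4 : 10000 ≤ n)
    (hN2 : (n : ℝ) / 2 ≤ N) (ht : (t : ℝ) ≤ x / 4) :
    (3 * ((2 * (n : ℝ)) ^ t) ^ 2) ^ (2 ^ t) * Real.exp (-(1 / 4000 * N * (56000 * x) / 2)) *
      ((2 * (n : ℝ) ^ 5) ^ N * Real.exp (t / 2)) < 3 / 2 * (1 / 4000) * N := by
  have hn4' : (10000 : ℝ) ≤ n := by exact_mod_cast hn4
  have hn0 : (0 : ℝ) < n := by linarith only [hn4']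
  have hen : Real.exp x = n := by rw [← hxn, Real.exp_log hn0]
  have ht0 : (0 : ℝ) ≤ t := Nat.cast_nonneg _
  have hN0 : (5000 : ℝ) ≤ N := by linarith only [hn4', hN2]
  have he2 : (2 : ℝ) ≤ Real.exp 1 := by
    have := Real.exp_one_gt_d9
    linarith only [this]
  have a1 : (3 : ℝ) ≤ Real.exp 2 := by
    have : Real.exp 2 = Real.exp 1 * Real.exp 1 := by
      rw [← Real.exp_add]
      norm_num
    rw [this]
    nlinarith only [he2]
  have a2 : (2 * (n : ℝ)) ^ t ≤ Real.exp (2 * x * t) := by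
    rw [mul_comm (2 * x) (t : ℝ), Real.exp_nat_mul]
    apply pow_le_pow_left₀ (by positivity)
    calc 2 * (n : ℝ) ≤ n * n := by nlinarith only [hn4']
      _ = Real.exp (2 * x) := by
        rw [← hen, ← Real.exp_add]
        congr 1
        ring
  have a3 : 3 * ((2 * (n : ℝ)) ^ t) ^ 2 ≤ Real.exp (2 + x ^ 2) := by
    calc 3 * ((2 * (n : ℝ)) ^ t) ^ 2 ≤ Real.exp 2 * (Real.exp (2 * x * t)) ^ 2 := by
          apply mul_le_mul a1 (pow_le_pow_left₀ (by positivity) a2 2) (by positivity)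
            (Real.exp_pos _).le
      _ = Real.exp (2 + 4 * x * t) := by
          rw [← Real.exp_nat_mul, ← Real.exp_add]
          congr 1
          push_cast
          ring
      _ ≤ Real.exp (2 + x ^ 2) := by
          apply Real.exp_le_exp.2
          have := mul_le_mul_of_nonneg_left ht (show 0 ≤ 4 * x by linarith only [hx])
          nlinarith only [this]
  have a4 : ((2 ^ t : ℕ) : ℝ) ≤ Real.exp (x / 4) := by
    push_cast
    calc (2 : ℝ) ^ t ≤ (Real.exp 1) ^ t := pow_le_pow_left₀ (by norm_num) he2 t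
      _ = Real.exp t := by
          rw [← Real.exp_nat_mul, mul_one]
      _ ≤ Real.exp (x / 4) := Real.exp_le_exp.2 ht
  have a5 : (3 * ((2 * (n : ℝ)) ^ t) ^ 2) ^ (2 ^ t) ≤ Real.exp ((2 + x ^ 2) * Real.exp (x / 4)) := by
    calc (3 * ((2 * (n : ℝ)) ^ t) ^ 2) ^ (2 ^ t) ≤ (Real.exp (2 + x ^ 2)) ^ (2 ^ t) :=
          pow_le_pow_left₀ (by positivity) a3 _
      _ = Real.exp (((2 ^ t : ℕ) : ℝ) * (2 + x ^ 2)) := by rw [← Real.exp_nat_mul]
      _ ≤ _ := by
          apply Real.exp_le_exp.2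
          rw [mul_comm]
          exact mul_le_mul_of_nonneg_left a4 (by positivity)
  have a6 : (2 * (n : ℝ) ^ 5) ^ N ≤ Real.exp (6 * x * N) := by
    rw [mul_comm (6 * x) (N : ℝ), Real.exp_nat_mul]
    apply pow_le_pow_left₀ (by positivity)
    calc 2 * (n : ℝ) ^ 5 ≤ n * (n : ℝ) ^ 5 := by
          apply mul_le_mul_of_nonneg_right _ (by positivity)
          linarith only [hn4']
      _ = (n : ℝ) ^ 6 := by ring
      _ = Real.exp (6 * x) := by
          rw [← hen, ← Real.exp_nat_mul]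
          norm_num
  have a7 : Real.exp ((t : ℝ) / 2) ≤ Real.exp x := by
    apply Real.exp_le_exp.2
    linarith only [ht, hx]
  have a8 : -(1 / 4000 * (N : ℝ) * (56000 * x) / 2) = -(7 * N * x) := by ring
  rw [a8]
  have g := growth hx
  rw [hen] at g
  calc (3 * ((2 * (n : ℝ)) ^ t) ^ 2) ^ (2 ^ t) * Real.exp (-(7 * N * x)) *
      ((2 * (n : ℝ) ^ 5) ^ N * Real.exp (t / 2))
      ≤ Real.exp ((2 + x ^ 2) * Real.exp (x / 4)) * Real.exp (-(7 * N * x)) *
        (Real.exp (6 * x * N) * Real.exp x) := by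
        apply mul_le_mul
        · exact mul_le_mul_of_nonneg_right a5 (Real.exp_pos _).le
        · exact mul_le_mul a6 a7 (Real.exp_pos _).le (Real.exp_pos _).le
        · positivity
        · positivity
    _ = Real.exp ((2 + x ^ 2) * Real.exp (x / 4) + x - N * x) := by
        rw [← Real.exp_add, ← Real.exp_add, ← Real.exp_add]
        congr 1
        ring
    _ ≤ Real.exp 0 := by
        apply Real.exp_le_exp.2
        have h1 : (n : ℝ) * x / 8 ≤ N * x := by
          have := mul_le_mul_of_nonneg_right hN2 (show 0 ≤ x by linarith only [hx])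
          have h2 : 0 ≤ (n : ℝ) * x := mul_nonneg hn0.le (by linarith only [hx])
          linarith only [this, h2]
        linarith only [g, h1]
    _ = 1 := Real.exp_zero
    _ < 3 / 2 * (1 / 4000) * N := by linarith only [hN0]

end Num

theorem exists_stepNum2 : ∃ n₁ : ℕ, ∀ n ≥ n₁,
    ∀ t N D : ℕ, 1 ≤ t → (t : ℝ) ^ 3 ≤ Real.log n → N + t = n → (D : ℝ) ≤ Real.exp t →
      StepNum2 N t n D (56000 * Real.log n)
        ((n : ℝ) ^ 5 * (1 / (8 * Real.sqrt t * (n : ℝ) ^ 2)) / 2 - 1)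
        (1 / (8 * Real.sqrt t * (n : ℝ) ^ 2)) := by
  obtain ⟨n₀, hn₀⟩ := exists_stepNumT (1 / 4000) 1 (by norm_num) (by norm_num)
  have htend : Filter.Tendsto (fun n : ℕ => Real.log (n : ℝ)) Filter.atTop Filter.atTop :=
    Real.tendsto_log_atTop.comp tendsto_natCast_atTop_atTop
  obtain ⟨n₂, hn₂⟩ := Filter.eventually_atTop.1 (htend.eventually_ge_atTop 40)
  refine ⟨max n₀ (max n₂ 10000), fun n hn t N D ht ht3 hN hD => ?_⟩
  have hn0 : n₀ ≤ n := (le_max_left _ _).trans hn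
  have hlog40 : 40 ≤ Real.log n := hn₂ n ((le_max_left _ _).trans ((le_max_right _ _).trans hn))
  have hn4 : 10000 ≤ n := (le_max_right _ _).trans ((le_max_right _ _).trans hn)
  have hn4' : (10000 : ℝ) ≤ n := by exact_mod_cast hn4
  have hnpos : (0 : ℝ) < n := by linarith only [hn4']
  set x : ℝ := Real.log n with hx
  have hen : Real.exp x = n := by rw [hx, Real.exp_log hnpos]
  have htr : (1 : ℝ) ≤ t := by exact_mod_cast ht
  have htx4 : (t : ℝ) ≤ x / 4 := by
    by_contra hcon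
    push Not at hcon
    have h1 : (x / 4) ^ 3 < (t : ℝ) ^ 3 := pow_lt_pow_left₀ hcon (by linarith only [hlog40]) (by norm_num)
    have h2 : x ≤ (x / 4) ^ 3 := by
      have h3 : 1600 ≤ x ^ 2 := by nlinarith only [hlog40]
      have h4 : 1600 * x ≤ x ^ 2 * x := mul_le_mul_of_nonneg_right h3 (by linarith only [hlog40])
      have : (x / 4) ^ 3 = x ^ 2 * x / 64 := by ring
      rw [this]
      linarith only [h4, hlog40]
    linarith only [h1, h2, ht3]
  have htx : (t : ℝ) ≤ x := by linarith only [htx4, hlog40]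
  have hs := hn₀ n hn0 t N ⌈28 * x / 1⌉₊ ht htx hN (Nat.le_ceil _)
  have hxn : x ≤ n / 1000 := by
    have h5 := Real.add_one_le_exp (x / 8)
    have h6 : (x / 8 + 1) ^ 8 ≤ Real.exp x := by
      calc (x / 8 + 1) ^ 8 ≤ Real.exp (x / 8) ^ 8 :=
            pow_le_pow_left₀ (by linarith only [hlog40]) h5 8
        _ = Real.exp x := by
            rw [← Real.exp_nat_mul]
            congr 1
            push_cast
            ring
    rw [hen] at h6
    have h11 : (6 : ℝ) ^ 7 ≤ (x / 8 + 1) ^ 7 :=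
      pow_le_pow_left₀ (by norm_num) (by linarith only [hlog40]) 7
    have h12 : (x / 8 + 1) ^ 8 = (x / 8 + 1) ^ 7 * (x / 8 + 1) := by ring
    rw [h12] at h6
    have h13 : (6 : ℝ) ^ 7 * (x / 8 + 1) ≤ (x / 8 + 1) ^ 7 * (x / 8 + 1) :=
      mul_le_mul_of_nonneg_right h11 (by linarith only [hlog40])
    norm_num at h13
    linarith only [h13, h6, hlog40]
  have hNr : (N : ℝ) = n - t := by
    rw [← hN]
    push_cast
    ring
  have hN2 : (n : ℝ) / 2 ≤ N := by
    rw [hNr]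
    linarith only [hxn, htx, hnpos]
  have hNn : (N : ℝ) ≤ n := by
    rw [hNr]
    linarith only [htr]
  refine
    { hNn := hN
      ht := ht
      hn := by omega
      hN := hs.hN
      hm := by linarith only [hlog40]
      hρ := hs.hρ
      hL := hs.hL
      hL1 := hs.hL1
      hL2 := hs.hL2
      hlow := hs.hlow
      hup := hs.hup
      hlam1 := hs.hlam1
      hlam2 := hs.hlam2
      hpD := ?_
      hunion := Num.union2 hlog40 rfl hn4 hN2 htx4 }
  -- hpD
  have hst1 : 1 ≤ Real.sqrt t := by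
    rw [Real.one_le_sqrt]
    exact htr
  have hstt : Real.sqrt t ≤ t := by
    rw [Real.sqrt_le_left (by linarith only [htr])]
    nlinarith only [htr]
  have hu0 : 0 < Real.sqrt t := by linarith only [hst1]
  have e1 : (n : ℝ) ^ 2 ≤ (n : ℝ) ^ 5 * (1 / (8 * Real.sqrt t * (n : ℝ) ^ 2) / 2) := by
    have e : (n : ℝ) ^ 5 * (1 / (8 * Real.sqrt t * (n : ℝ) ^ 2) / 2) =
        (n : ℝ) ^ 3 / (16 * Real.sqrt t) := by
      field_simp
      norm_num
    rw [e, le_div_iff₀ (by positivity)]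
    calc (n : ℝ) ^ 2 * (16 * Real.sqrt t) ≤ (n : ℝ) ^ 2 * n := by
          apply mul_le_mul_of_nonneg_left _ (by positivity)
          linarith only [hstt, htx, hxn, hnpos]
      _ = (n : ℝ) ^ 3 := by ring
  have hN1 := hs.hN
  have e2 : (n : ℝ) ^ 5 * (1 / (8 * Real.sqrt t * (n : ℝ) ^ 2) / 2) ≤
      ((n : ℝ) ^ 5 * (1 / (8 * Real.sqrt t * (n : ℝ) ^ 2) / 2)) ^ N := by
    apply le_self_pow₀ _ (by omega)
    have : (1 : ℝ) ≤ (n : ℝ) ^ 2 := one_le_pow₀ (by linarith only [hn4'])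
    linarith only [e1, this]
  have e3 : (D : ℝ) ≤ n := by
    rw [← hen]
    exact hD.trans (Real.exp_le_exp.2 htx)
  have e4 : (2 : ℝ) ^ t ≤ n := by
    have he2 : (2 : ℝ) ≤ Real.exp 1 := by
      have := Real.exp_one_gt_d9
      linarith only [this]
    calc (2 : ℝ) ^ t ≤ (Real.exp 1) ^ t := pow_le_pow_left₀ (by norm_num) he2 t
      _ = Real.exp t := by
          rw [← Real.exp_nat_mul, mul_one]
      _ ≤ Real.exp x := Real.exp_le_exp.2 htx
      _ = n := hen
  calc 3 * (1 / 4000) * (N : ℝ) * (D + 2 ^ t + 3)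
      ≤ 3 * (1 / 4000) * n * (n + n + n) := by
        apply mul_le_mul
        · linarith only [hNn]
        · linarith only [e3, e4, hn4']
        · positivity
        · positivity
    _ < (n : ℝ) ^ 2 := by nlinarith only [hn4']
    _ ≤ _ := e1.trans e2

theorem cov_log (hG : StmtG) (hC : StmtC) (hD1 : ∃ N₀ : ℕ, ∀ N, N₀ ≤ N → StmtD1 N)
    (hD2 : StmtD2) (hD3 : StmtD3) (hD3' : StmtD3') :
    ∃ C : ℝ, 0 < C ∧ ∃ n₀ : ℕ, ∀ n ≥ n₀, Cov n 0 (C * n * Real.log n) := by
  obtain ⟨CG, hCG, m₀, hG⟩ := hG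
  obtain ⟨CC, hCC, t₀, hC⟩ := hC
  obtain ⟨N₀, hD1⟩ := hD1
  obtain ⟨n₁, hnum⟩ := exists_stepNum2
  have htend : Filter.Tendsto (fun n : ℕ => Real.log (n : ℝ)) Filter.atTop Filter.atTop :=
    Real.tendsto_log_atTop.comp tendsto_natCast_atTop_atTop
  have htend2 : Filter.Tendsto (fun n : ℕ => 56000 * Real.log (n : ℝ)) Filter.atTop Filter.atTop :=
    htend.const_mul_atTop (by norm_num)
  have ev1 : ∀ᶠ y : ℝ in Filter.atTop, Real.log y ^ 6 ≤ y / 56000 := by
    have h := (Real.isLittleO_pow_log_id_atTop (n := 6)).def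
      (show (0 : ℝ) < 1 / 56000 by norm_num)
    filter_upwards [h, Filter.eventually_ge_atTop (Real.exp 1)] with x hx hx0
    have hlog : 1 ≤ Real.log x := by
      rw [Real.le_log_iff_exp_le (lt_of_lt_of_le (Real.exp_pos 1) hx0)]
      exact hx0
    have hx1 : 0 < x := lt_of_lt_of_le (Real.exp_pos 1) hx0
    rw [Real.norm_eq_abs, Real.norm_eq_abs, abs_of_nonneg (by positivity), id,
      abs_of_pos hx1] at hx
    linarith only [hx]
  have hev := (htend2.eventually ev1).and ((htend2.eventually_ge_atTop (max m₀ (2 ^ t₀ + 1))).and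
    ((htend.eventually_ge_atTop 40).and (Filter.eventually_ge_atTop (max n₁ (2 * N₀ + 10)))))
  obtain ⟨n₀, hn₀⟩ := Filter.eventually_atTop.1 hev
  refine ⟨3 * (1 / 4000) * CC * CG * 56000, by positivity, n₀, ?_⟩
  intro n hn
  obtain ⟨hlog6, hmbig, hlog40, hnbig⟩ := hn₀ n hn
  set x : ℝ := Real.log n with hx
  set m : ℝ := 56000 * x with hm
  have hm₀ : m₀ ≤ m := (le_max_left _ _).trans hmbig
  have hmt₀ : (2 : ℝ) ^ t₀ + 1 ≤ m := (le_max_right _ _).trans hmbig
  have hn1 : n₁ ≤ n := (le_max_left _ _).trans hnbig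
  have hnN : 2 * N₀ + 10 ≤ n := (le_max_right _ _).trans hnbig
  have hnpos : (0 : ℝ) < n := by
    have : 0 < n := by (clear * - hnN; omega)
    exact_mod_cast this
  have hx0 : 0 < x := by linarith only [hlog40]
  have hm0 : 0 < m := by linarith only [hx0, hm]
  obtain ⟨t, D, ML, ht1, htm, hD, hML, hdet, hlat⟩ := hG m hm₀
  have ht3 : (t : ℝ) ^ 3 ≤ x := by
    calc (t : ℝ) ^ 3 ≤ (Real.log m ^ 2) ^ 3 := pow_le_pow_left₀ (Nat.cast_nonneg _) htm 3
      _ = Real.log m ^ 6 := by ring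
      _ ≤ m / 56000 := hlog6
      _ = x := by rw [hm]; ring
  have htr : (1 : ℝ) ≤ t := by exact_mod_cast ht1
  have htx : (t : ℝ) ≤ x := by
    refine le_trans ?_ ht3
    calc (t : ℝ) = t ^ 1 := (pow_one _).symm
      _ ≤ (t : ℝ) ^ 3 := pow_le_pow_right₀ htr (by norm_num)
  have hexp3 : Real.exp ((t : ℝ) ^ 3) ≤ n := by
    rw [← Real.le_log_iff_exp_le hnpos]
    exact ht3
  have htn : 2 * t ≤ n := by
    have h1 : (t : ℝ) ≤ n / 2 := by
      have h2 : (2 : ℝ) * x ≤ n := by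
        have h3 : Real.log (n / 2 : ℝ) ≤ n / 2 - 1 :=
          Real.log_le_sub_one_of_pos (by (clear * - hnpos; positivity))
        rw [Real.log_div hnpos.ne' (by norm_num), ← hx] at h3
        have h4 := Real.log_two_lt_d9
        linarith only [h3, h4]
      linarith only [htx, h2]
    have h2 : (2 : ℝ) * t ≤ n := by linarith only [h1]
    exact_mod_cast h2
  obtain ⟨N, hN⟩ : ∃ N, N + t = n := ⟨n - t, by (clear * - ht1 htn; omega)⟩
  have hNN₀ : N₀ ≤ N := by omega
  -- `t ≥ t₀`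
  have htt₀ : t₀ ≤ t := by
    by_contra hcon
    push Not at hcon
    obtain ⟨P, hPt, hPa, hPs⟩ := hlat 0
    have h1 : ∑ z ∈ P, prof t (fun i => (0 : Fin t → ℝ) i + ML.mulVec (fun a => (z a : ℝ)) i) ≤
        ∑ _z ∈ P, (1 : ℝ) := Finset.sum_le_sum fun z hz => prof_le_one (hPa z hz)
    rw [Finset.sum_const, nsmul_eq_mul, mul_one] at h1
    have h2 : ((P.card : ℕ) : ℝ) ≤ 2 ^ t := by exact_mod_cast hD3' hPt
    have h3 : (2 : ℝ) ^ t ≤ 2 ^ t₀ := pow_le_pow_right₀ (by norm_num) hcon.le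
    linarith only [h1, h2, h3, hPs, hmt₀]
  have hs := hnum n hn1 t N D ht1 ht3 hN hD
  have hpe : (0 : ℝ) < (2 * Real.pi * Real.exp 1) ^ ((t : ℝ) / 2) := by
    apply Real.rpow_pos_of_pos
    positivity
  have hcov := step_profile hD2 hD3 hD3' hs (hD1 N hNN₀) (by positivity)
    (hC t htt₀ N n hN hexp3) ML hML hlat
  refine hcov.mono ?_
  have hdetpos : 0 < |ML.det| := abs_pos.2 hML
  have hNn : (N : ℝ) ≤ n := by
    have : N ≤ n := by omega
    exact_mod_cast this
  rw [div_le_iff₀ hdetpos]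
  calc 3 * (1 / 4000) * (N : ℝ) * (CC * (2 * Real.pi * Real.exp 1) ^ ((t : ℝ) / 2))
      ≤ 3 * (1 / 4000) * n * (CC * (CG * m * |ML.det|)) := by
        gcongr
    _ = 3 * (1 / 4000) * CC * CG * 56000 * n * x * |ML.det| := by
        rw [hm]
        ring

/-- the upper bound for `Θ_L` from the covering property -/
theorem thetaL_of_cov (h : ∃ C : ℝ, 0 < C ∧ ∃ n₀ : ℕ, ∀ n ≥ n₀, Cov n 0 (C * n * Real.log n)) :
    ∃ C : ℝ, 0 < C ∧ ∀ n : ℕ, 2 ≤ n → ThetaL n ≤ ENNReal.ofReal (C * n * Real.log n) := by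
  obtain ⟨C, hC, n₀, h⟩ := h
  have hlog2 : 0 < Real.log 2 := Real.log_pos (by norm_num)
  set B : ℝ := (4 * (n₀ + 1) : ℝ) ^ (n₀ + 1) / (Real.log 2) with hB
  have hB0 : 0 < B := by positivity
  refine ⟨C + B, by positivity, fun n hn => ?_⟩
  have hn1 : (1 : ℝ) ≤ n := by
    have : 1 ≤ n := by omega
    exact_mod_cast this
  have hn2 : (2 : ℝ) ≤ n := by exact_mod_cast hn
  have hlogn : Real.log 2 ≤ Real.log n := Real.log_le_log (by norm_num) hn2
  have hp : 0 ≤ Real.log n := by linarith only [hlog2, hlogn]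
  rcases le_or_gt n₀ n with h1 | h1
  · refine (ThetaL_le_of_cov (by omega) (h n h1)).trans (ENNReal.ofReal_le_ofReal ?_)
    calc C * n * Real.log n ≤ (C + B) * n * Real.log n := by
          gcongr
          linarith only [hB0]
      _ = _ := rfl
  · refine (ThetaL_le_of_cov (by omega) (cov_small n (by omega) 1 le_rfl)).trans
      (ENNReal.ofReal_le_ofReal ?_)
    have h2 : (n : ℝ) ≤ n₀ + 1 := by
      have : n ≤ n₀ + 1 := by (clear * - h1; omega)
      exact_mod_cast this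
    calc (4 * n : ℝ) ^ n ≤ (4 * (n₀ + 1) : ℝ) ^ n := by gcongr
      _ ≤ (4 * (n₀ + 1) : ℝ) ^ (n₀ + 1) := by
          apply pow_le_pow_right₀
          · have : (0 : ℝ) ≤ n₀ := Nat.cast_nonneg _
            linarith only [this]
          · omega
      _ = B * 1 * (Real.log 2) := by
          rw [hB]
          (clear * - hlog2; field_simp)
      _ ≤ (C + B) * n * Real.log n := by
          gcongr
          linarith only [hC]

theorem thetaL_of_stmts (hG : StmtG) (hC : StmtC) (hD1 : ∃ N₀ : ℕ, ∀ N, N₀ ≤ N → StmtD1 N)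
    (hD2 : StmtD2) (hD3 : StmtD3) (hD3' : StmtD3') :
    ∃ C : ℝ, 0 < C ∧ ∀ n : ℕ, 2 ≤ n → ThetaL n ≤ ENNReal.ofReal (C * n * Real.log n) :=
  thetaL_of_cov (cov_log hG hC hD1 hD2 hD3 hD3')

end Vale.Agent.P230.H691
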