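import Vale.Agent.P230.D.Stmt

/-!
# From kernel averages with a radial profile to slices with a profile (part C2)
-/

open MeasureTheory Set
open scoped ENNReal

namespace Vale.Agent.P230.H691

open Vale.Agent.P230 Vale.Agent.P230.SliceBall Vale.Agent.P230.D

/-- C1, helper706's `pick_G'` -/
def StmtPick : Prop :=
  ∃ c : ℝ, 0 < c ∧ ∃ t₀ : ℕ, ∀ t ≥ t₀, ∀ n : ℕ, Real.exp ((t : ℝ) ^ 3) ≤ n →
    ∀ K : Set (Fin n → ℝ), Convex ℝ K → IsCompact K → 0 < volume K →
    (∀ i j, ∫ x in K, x i * x j = if i = j then (volume K).toReal else 0) →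
    ∃ G : Matrix (Fin t) (Fin n) ℝ, ∀ b : Fin t → ℝ, ∑ i, b i ^ 2 ≤ 4 * t →
      c * (volume K).toReal * (1 / (t : ℝ) ^ 2) ^ t *
          Real.exp (-(max (∑ i, b i ^ 2) t) / 2) ≤
        ∫ x in K, Real.exp (-(∑ i, (G.mulVec x i - b i) ^ 2) * (t : ℝ) ^ 4 / 2)

/-- a kernel lower bound on a sphere forces surjectivity -/
theorem surj_of_kernel2 {t n : ℕ} (c : ℝ) (ht : 1 ≤ t) (K : Set (Fin n → ℝ))
    (hk : IsCompact K) (hv : 0 < volume K) (G : Matrix (Fin t) (Fin n) ℝ)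
    (hbig : Real.exp (-(2 * (t : ℝ) ^ 5)) <
      c * (1 / (t : ℝ) ^ 2) ^ t * Real.exp (-(2 * (t : ℝ))))
    (h : ∀ b : Fin t → ℝ, ∑ i, b i ^ 2 = 4 * t →
      c * (volume K).toReal * (1 / (t : ℝ) ^ 2) ^ t * Real.exp (-(4 * (t : ℝ)) / 2) ≤
        ∫ x in K, Real.exp (-(∑ i, (G.mulVec x i - b i) ^ 2) * (t : ℝ) ^ 4 / 2)) :
    Function.Surjective G.mulVec := by
  classical
  have ht0 : (0 : ℝ) < t := by exact_mod_cast ht
  have hvr : 0 < (volume K).toReal := ENNReal.toReal_pos hv.ne' hk.measure_lt_top.ne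
  by_contra hns
  have hrange : LinearMap.range G.mulVecLin < ⊤ := by
    rw [lt_top_iff_ne_top]
    intro h1
    apply hns
    rw [LinearMap.range_eq_top] at h1
    exact h1
  obtain ⟨f, hf0, hf⟩ := Submodule.exists_le_ker_of_lt_top _ hrange
  set u : Fin t → ℝ := fun i => f (Pi.single i 1) with hu
  have hfu : ∀ x : Fin t → ℝ, f x = ∑ i, u i * x i := by
    intro x
    conv_lhs => rw [LinearMap.pi_apply_eq_sum_univ f x]
    refine Finset.sum_congr rfl fun i _ => ?_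
    rw [smul_eq_mul, mul_comm, hu]
    congr 2
    funext j
    rw [Pi.single_apply]
    simp [eq_comm]
  have hperp : ∀ x : Fin n → ℝ, ∑ i, u i * G.mulVec x i = 0 := by
    intro x
    rw [← hfu]
    have : G.mulVec x ∈ LinearMap.range G.mulVecLin := ⟨x, rfl⟩
    exact hf this
  have husq : 0 < ∑ i, u i ^ 2 := by
    by_contra hcon
    have h1 : ∑ i, u i ^ 2 = 0 := le_antisymm (not_lt.1 hcon) (by (clear * -; positivity))
    apply hf0
    ext i
    rw [Finset.sum_eq_zero_iff_of_nonneg (fun i _ => sq_nonneg _)] at h1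
    have h2 := h1 i (Finset.mem_univ i)
    have h3 : u i = 0 := by simpa using h2
    simpa only [LinearMap.coe_comp, LinearMap.coe_single, Function.comp_apply, LinearMap.zero_comp,
      LinearMap.zero_apply, hu] using h3
  set s : ℝ := ∑ i, u i ^ 2 with hs
  set a : ℝ := Real.sqrt (4 * t / s) with ha
  have ha2 : a ^ 2 = 4 * t / s := Real.sq_sqrt (by (clear * - ht husq; positivity))
  set b : Fin t → ℝ := fun i => a * u i with hb
  have hbsq : ∑ i, b i ^ 2 = 4 * t := by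
    have : ∑ i, b i ^ 2 = a ^ 2 * s := by
      rw [hs, Finset.mul_sum]
      refine Finset.sum_congr rfl fun i _ => ?_
      simp only [hb]
      ring
    rw [this, ha2]
    (clear * - husq ht; field_simp)
  have hdist : ∀ x : Fin n → ℝ, 4 * (t : ℝ) ≤ ∑ i, (G.mulVec x i - b i) ^ 2 := by
    intro x
    have e : ∑ i, (G.mulVec x i - b i) ^ 2 = ∑ i, (G.mulVec x i) ^ 2 -
        2 * a * ∑ i, u i * G.mulVec x i + ∑ i, b i ^ 2 := by
      rw [Finset.mul_sum, ← Finset.sum_sub_distrib, ← Finset.sum_add_distrib]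
      refine Finset.sum_congr rfl fun i _ => ?_
      simp only [hb]
      ring
    rw [e, hperp, hbsq]
    have : 0 ≤ ∑ i, (G.mulVec x i) ^ 2 := by (clear * -; positivity)
    linarith only [this]
  have h1 := h b hbsq
  have h2 : ∫ x in K, Real.exp (-(∑ i, (G.mulVec x i - b i) ^ 2) * (t : ℝ) ^ 4 / 2) ≤
      Real.exp (-(2 * (t : ℝ) ^ 5)) * (volume K).toReal := by
    have h3 : ∫ x in K, Real.exp (-(∑ i, (G.mulVec x i - b i) ^ 2) * (t : ℝ) ^ 4 / 2) ≤
        ∫ _x in K, Real.exp (-(2 * (t : ℝ) ^ 5)) := by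
      apply setIntegral_mono_on
      · refine ContinuousOn.integrableOn_compact hk (Continuous.continuousOn ?_)
        have : ∀ i, Continuous fun x : Fin n → ℝ => G.mulVec x i := fun i =>
          (continuous_apply i).comp (Continuous.matrix_mulVec continuous_const continuous_id)
        fun_prop
      · exact integrableOn_const hk.measure_lt_top.ne
      · exact hk.measurableSet
      · intro x _
        apply Real.exp_le_exp.2
        have h4 := hdist x
        have h5 : (0 : ℝ) ≤ (t : ℝ) ^ 4 := by positivity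
        have h6 : 4 * (t : ℝ) * (t : ℝ) ^ 4 ≤ (∑ i, (G.mulVec x i - b i) ^ 2) * (t : ℝ) ^ 4 := by
          (clear * - h4 ht; gcongr)
        have h7 : 4 * (t : ℝ) * (t : ℝ) ^ 4 = 4 * (t : ℝ) ^ 5 := by ring
        linarith only [h6]
    refine h3.trans (le_of_eq ?_)
    rw [setIntegral_const, smul_eq_mul, mul_comm]
    rfl
  have h8 := h1.trans h2
  have h9 : c * (volume K).toReal * (1 / (t : ℝ) ^ 2) ^ t * Real.exp (-(4 * (t : ℝ)) / 2) =
      (c * (1 / (t : ℝ) ^ 2) ^ t * Real.exp (-(2 * (t : ℝ)))) * (volume K).toReal := by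
    rw [show -(4 * (t : ℝ)) / 2 = -(2 * (t : ℝ)) by ring]
    ring
  rw [h9] at h8
  have h10 := le_of_mul_le_mul_right h8 hvr
  linarith only [hbig, h10]

/-- from kernel averages with a profile to slices with a profile -/
theorem slices_of_kernel2 (c : ℝ) (hc : 0 < c) : ∃ t₀ : ℕ, ∀ t ≥ t₀, ∀ (N : ℕ)
    (K : Set ((Fin N → ℝ) × (Fin t → ℝ))), Convex ℝ K → IsCompact K → 0 < volume K →
    (∀ b : Fin t → ℝ, ∑ i, b i ^ 2 ≤ 4 * t →
      c * (volume K).toReal * (1 / (t : ℝ) ^ 2) ^ t *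
          Real.exp (-(max (∑ i, b i ^ 2) t) / 2) ≤
        ∫ q in K, Real.exp (-(∑ i, (q.2 i - b i) ^ 2) * (t : ℝ) ^ 4 / 2)) →
    ∀ b : Fin t → ℝ, ∑ i, b i ^ 2 ≤ 3 * t →
      c / 4 * (2 * Real.pi) ^ (-(t : ℝ) / 2) * Real.exp (-(max (∑ i, b i ^ 2) t) / 2) *
        (volume K).toReal ≤ (volume {x | (x, b) ∈ K}).toReal := by
  obtain ⟨t₀, ht₀, hnum⟩ := numbers c hc
  refine ⟨t₀, fun t ht N K hcv hk hV hker b hb => ?_⟩
  have ht1 : 1 ≤ t := by omega
  have ht32 : (32 : ℝ) ≤ t := by exact_mod_cast ht₀.trans ht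
  have htR : (0 : ℝ) < t := by linarith only [ht32]
  set V := (volume K).toReal with hVdef
  have hKf : volume K ≠ ∞ := hk.measure_lt_top.ne
  have V0 : 0 < V := ENNReal.toReal_pos hV.ne' hKf
  set G := Real.sqrt (2 * Real.pi) ^ t with hG
  have hGpos : 0 < G := by positivity
  set β₀ : ℝ := max (∑ i, b i ^ 2) t with hβ₀
  have hβ1 : (t : ℝ) ≤ β₀ := le_max_right _ _
  have hβ3 : β₀ ≤ 3 * t := max_le hb (by linarith only [htR])
  have hββ : ∑ i, b i ^ 2 ≤ β₀ := le_max_left _ _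
  set R := Real.sqrt β₀ with hR
  have hR2 : R ^ 2 = β₀ := Real.sq_sqrt (by linarith only [hβ1, htR])
  have hR0 : 0 ≤ R := Real.sqrt_nonneg _
  set R₀ := R + 1 / t with hR₀
  -- size of R
  have hRt : R ≤ 0.31 * t := by
    refine (pow_le_pow_iff_left₀ hR0 (by positivity) two_ne_zero).1 ?_
    rw [hR2]
    nlinarith only [ht32, hβ3]
  have hdiff : R₀ ^ 2 ≤ β₀ + 0.63 := by
    have e : R₀ ^ 2 = R ^ 2 + 2 * (R / t) + (1 / t) ^ 2 := by
      rw [hR₀]; field_simp; ring
    have h1 : R / t ≤ 0.31 := by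
      rw [div_le_iff₀ htR]; exact hRt
    have h2 : (1 / (t : ℝ)) ≤ 1 / 32 := one_div_le_one_div_of_le (by norm_num) ht32
    have h3 : (0 : ℝ) ≤ 1 / t := by positivity
    have h4 : (1 / (t : ℝ)) ^ 2 ≤ (1 / 32) ^ 2 := pow_le_pow_left₀ h3 h2 2
    rw [e, hR2]
    norm_num at h4 ⊢
    linarith only [h4, h1]
  have hR4 : R₀ ^ 2 ≤ 4 * t := by nlinarith only [ht32, hdiff, hβ3]
  have hRR : β₀ ≤ R₀ ^ 2 := by
    rw [← hR2]
    apply pow_le_pow_left₀ hR0
    rw [hR₀]
    have : (0 : ℝ) ≤ 1 / t := by positivity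
    linarith only [this]
  -- the level
  set g₀ : ℝ := 1 / 2 * c * G⁻¹ * Real.exp (-(R₀ ^ 2) / 2) * V with hg₀
  have hg0 : 0 ≤ g₀ := by (clear * - hc ht1 V0; positivity)
  have hball := ball_subset_of_meets {b | ENNReal.ofReal g₀ ≤ slc K b}
    (convex_level hcv hk _) (slc_closed hk _) R₀ (1 / t) (by positivity)
    (by linarith only [hR0]) (by
      intro b hb
      have hb4 : ∑ i, b i ^ 2 ≤ 4 * t := hb.trans hR4
      have hkb := hker b hb4
      set β := max (∑ i, b i ^ 2) (t : ℝ) with hβ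
      have hβR : β ≤ R₀ ^ 2 := max_le hb (hβ1.trans hRR)
      obtain ⟨b', h1, h2⟩ := exists_slice ht1 hk b
        (A := c * (1 / (t : ℝ) ^ 2) ^ t * Real.exp (-β / 2)) (g := g₀) hg0 (by
          refine le_trans (le_of_eq ?_) hkb
          ring) (by
          have e1 : g₀ * (G * (1 / (t : ℝ) ^ 2) ^ t) =
              1 / 2 * (c * (1 / (t : ℝ) ^ 2) ^ t * Real.exp (-(R₀ ^ 2) / 2)) * V := by
            rw [hg₀]; (clear * - hGpos ht1 V0 hc; field_simp)
          have e2 : Real.exp (-(R₀ ^ 2) / 2) ≤ Real.exp (-β / 2) := by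
            rw [Real.exp_le_exp]; linarith only [hβR]
          have e3 : Real.exp (-(4 * t) / 2) ≤ Real.exp (-β / 2) := by
            rw [Real.exp_le_exp]; linarith only [hR4, hβR]
          have e4 := hnum t ht
          have e5 : (0 : ℝ) < c * (1 / (t : ℝ) ^ 2) ^ t := by positivity
          have e6 := mul_le_mul_of_nonneg_left e2 e5.le
          have e7 := mul_le_mul_of_nonneg_left e3 e5.le
          have e4' : 1 / 2 * (c / t * (1 / (t : ℝ) ^ 2) ^ t * Real.exp (-(4 * t) / 2)) ≤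
              1 / 2 * (c * (1 / (t : ℝ) ^ 2) ^ t * Real.exp (-(4 * t) / 2)) := by
            have h5 : c / t ≤ c := div_le_self hc.le (by linarith only [ht32])
            gcongr
          have e8 : 1 / 2 * (c * (1 / (t : ℝ) ^ 2) ^ t * Real.exp (-(R₀ ^ 2) / 2)) +
              Real.exp (-((t : ℝ) ^ 2 / 2)) < c * (1 / (t : ℝ) ^ 2) ^ t * Real.exp (-β / 2) := by
            linarith only [e4, e4', e6, e7]
          have e9 := mul_lt_mul_of_pos_right e8 V0
          rw [add_mul, ← e1] at e9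
          exact e9)
      exact ⟨b', h1, h2⟩) b (by
      rw [hR₀, add_sub_cancel_right, hR2]; exact hββ)
  have hfin : slc K b ≠ ∞ := by
    have hcomp : IsCompact {x : Fin N → ℝ | (x, b) ∈ K} := by
      have hcl : IsClosed {x : Fin N → ℝ | (x, b) ∈ K} :=
        hk.isClosed.preimage (Continuous.prodMk_left b)
      refine (hk.image continuous_fst).of_isClosed_subset hcl ?_
      intro x hx
      exact ⟨(x, b), hx, rfl⟩
    exact hcomp.measure_lt_top.ne
  have h1 : g₀ ≤ (slc K b).toReal := (ENNReal.ofReal_le_iff_le_toReal hfin).1 hball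
  refine le_trans ?_ h1
  rw [rpow_eq, hg₀]
  have e1 : 1 / 2 * Real.exp (-β₀ / 2) ≤ Real.exp (-(R₀ ^ 2) / 2) := by
    have h2 : Real.exp (-β₀ / 2 - 0.315) ≤ Real.exp (-(R₀ ^ 2) / 2) := by
      rw [Real.exp_le_exp]; linarith only [hdiff]
    rw [sub_eq_add_neg, Real.exp_add] at h2
    have h3 := Real.add_one_le_exp (-0.315 : ℝ)
    have h4 := Real.exp_pos (-β₀ / 2)
    nlinarith only [h2, h4, h3]
  have e2 : (0 : ℝ) ≤ c * G⁻¹ * V := by (clear * - hc ht1 V0; positivity)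
  calc c / 4 * G⁻¹ * Real.exp (-β₀ / 2) * V
      = 1 / 2 * (c * G⁻¹ * V) * (1 / 2 * Real.exp (-β₀ / 2)) := by ring
    _ ≤ 1 / 2 * (c * G⁻¹ * V) * Real.exp (-(R₀ ^ 2) / 2) :=
        mul_le_mul_of_nonneg_left e1 (by positivity)
    _ = _ := by ring

end Vale.Agent.P230.H691
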