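import Vale.Agent.P230.D.Stmt

/-!
# The last step with a Gaussian profile (part D4)
-/

namespace Vale.Agent.P230.H691

open MeasureTheory Finset Vale.Agent.P230.D

/-- the numerical conditions for the last step with a profile -/
structure StepNum2 (N t n D : ℕ) (m L ρ : ℝ) : Prop where
  hNn : N + t = n
  ht : 1 ≤ t
  hn : 2 ≤ n
  hN : 1 ≤ N
  hm : 0 < m
  hρ : 0 < ρ
  hL : 1 < L
  hL1 : 2 * (n : ℝ) ^ 5 / (N : ℝ) ^ 3 + 1 ≤ L
  hL2 : L ≤ (n : ℝ) ^ 5 * ρ / 2 - 1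
  hlow : 2 / 3 * ((n : ℝ) ^ 5) ^ N ≤ ((1 - 1 / L) * ((n : ℝ) ^ 5 - (N : ℝ) ^ 3 / 2)) ^ N
  hup : ((n : ℝ) ^ 5 + (N : ℝ) ^ 3 / 2) ^ N ≤ 4 / 3 * ((n : ℝ) ^ 5) ^ N
  hlam1 : (N : ℝ) ^ 5 ≤ 2 * (n : ℝ) ^ 5
  hlam2 : 2 * (n : ℝ) ^ 5 ≤ (N : ℝ) ^ 6
  hpD : 3 * (1 / 4000) * N * (D + 2 ^ t + 3) < ((n : ℝ) ^ 5 * (ρ / 2)) ^ N
  hunion : (3 * ((2 * (n : ℝ)) ^ t) ^ 2) ^ (2 ^ t) * Real.exp (-(1 / 4000 * N * m / 2)) *
    ((2 * (n : ℝ) ^ 5) ^ N * Real.exp (t / 2)) < 3 / 2 * (1 / 4000) * N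

/-- D1, low density base estimate in dimension `N` -/
def StmtD1 (N : ℕ) : Prop :=
  ∀ K : Set (Fin N → ℝ), NormalizedR K ((N : ℝ) ^ 3) → ∀ lam : ℝ, (N : ℝ) ^ 5 ≤ lam →
    lam ≤ (N : ℝ) ^ 6 → ∀ (p : ℕ) [Fact p.Prime],
    ((intPts K lam).card : ℝ) ≤ 1 / 1000 * N * p →
    ((univ.filter (fun hu : (Fin N → ZMod p) × ZMod p =>
      hit p (intPts K lam) hu.1 hu.2 = ∅)).card : ℝ)
    ≤ 3 * Real.exp (-(((intPts K lam).card : ℝ) / p) / 2) * (p : ℝ) ^ (N + 1)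

/-- D2 -/
def StmtD2 : Prop :=
  ∀ {N : ℕ} {I : Type} [Fintype I] (p : ℕ) [Fact p.Prime]
    (bad : I → Finset ((Fin N → ZMod p) × ZMod p)) (ε : I → ℝ) (_ : ∀ i, 0 < ε i)
    (_ : ∀ i, ((bad i).card : ℝ) ≤ ε i * (p : ℝ) ^ (N + 1)),
    ∃ h : Fin N → ZMod p, ∀ i,
      ((univ.filter (fun u : ZMod p => (h, u) ∈ bad i)).card : ℝ) ≤ Fintype.card I * ε i * p

/-- D3 -/
def StmtD3 : Prop :=
  ∀ {t : ℕ} (p : ℕ) [Fact p.Prime] {J : Type} [Fintype J] (P : J → Finset (Fin t → ℤ))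
    (_ : ∀ j, (P j).Nonempty) (D : ℕ) (_ : D < p) (_ : ∀ j, TreeLike D (P j))
    (U : J → (Fin t → ℤ) → Finset (ZMod p)) (η : J → (Fin t → ℤ) → ℝ) (_ : ∀ j z, 0 ≤ η j z)
    (_ : ∀ j, ∀ z ∈ P j, ((U j z).card : ℝ) ≤ η j z * p) (Mx : ℝ)
    (_ : ∑ j, ((P j).card : ℝ) ≤ Mx) (_ : ∀ j, (∏ z ∈ P j, (Mx * η j z)) * p < Mx),
    ∃ g : Fin t → ZMod p, ∀ j, ∀ u : ZMod p, ∃ z ∈ P j, u - ∑ a, g a * (z a : ZMod p) ∉ U j z

/-- D3' -/
def StmtD3' : Prop :=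
  ∀ {t D : ℕ} {P : Finset (Fin t → ℤ)}, TreeLike D P → P.card ≤ 2 ^ t

theorem prof_pos (t : ℕ) (b : Fin t → ℝ) : 0 < prof t b := Real.exp_pos _

theorem prof_le_one {t : ℕ} {b : Fin t → ℝ} (hb : Ann t b) : prof t b ≤ 1 := by
  unfold prof
  rw [Real.exp_le_one_iff]
  linarith only [hb.1]

theorem exp_le_prof {t : ℕ} {b : Fin t → ℝ} (hb : Ann t b) : Real.exp (-(t / 2)) ≤ prof t b := by
  unfold prof
  rw [Real.exp_le_exp]
  linarith only [hb.2]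

theorem StepNum2.toT {N t n D : ℕ} {m L ρ : ℝ} (hs : StepNum2 N t n D m L ρ) :
    StepNumT N t n 1 (1 / 4000) 0 0 L ρ where
  hNn := hs.hNn
  ht := hs.ht
  hn := hs.hn
  hN := hs.hN
  hm := le_rfl
  hρ := hs.hρ
  hc₂ := by norm_num
  hL := hs.hL
  hL1 := hs.hL1
  hL2 := hs.hL2
  hlow := hs.hlow
  hup := hs.hup
  hlam1 := hs.hlam1
  hlam2 := hs.hlam2
  hp3 := by
    refine lt_of_le_of_lt ?_ hs.hpD
    have h1 : (0 : ℝ) ≤ D := Nat.cast_nonneg _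
    have h2 : (0 : ℝ) < 2 ^ t := by positivity
    have h3 : (0 : ℝ) ≤ N := Nat.cast_nonneg _
    have : (3 : ℝ) ≤ D + 2 ^ t + 3 := by linarith only [h1, h2]
    gcongr
  hη1 := by norm_num
  hη0 := le_rfl
  hηε := by simp
  hMη := by simp
  hunion := by
    have h3 : (1 : ℝ) ≤ N := by exact_mod_cast hs.hN
    simp only [mul_zero, pow_one, zero_mul]
    linarith only [h3]

/-- bounds for the slice volume constant -/
theorem g_bounds2 {N t : ℕ} {ρ : ℝ} (hρ : 0 < ρ) (T : Set (Fin N → ℝ)) (b : Fin t → ℝ)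
    (hb : Ann t b)
    (hTb : ∀ x ∈ T, ∀ i, |x i| ≤ 1)
    (hx₀ : ∃ x₀ : Fin N → ℝ, ∀ x : Fin N → ℝ, (∀ i, 0 ≤ x i ∧ x i ≤ ρ) → x₀ + x ∈ T)
    (g : ℝ) (hg : 0 < g) (hg1 : ENNReal.ofReal (g * prof t b) ≤ volume T)
    (hg2 : volume T ≤ ENNReal.ofReal (2 ^ N * (g * prof t b))) :
    (ρ / 2) ^ N ≤ g ∧ g ≤ 2 ^ N * Real.exp (t / 2) := by
  obtain ⟨h1, h2⟩ := g_boundsT hρ T hTb hx₀ (g * prof t b) (mul_pos hg (prof_pos t b)) hg1 hg2
  constructor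
  · refine h1.trans ?_
    calc g * prof t b ≤ g * 1 := by
          apply mul_le_mul_of_nonneg_left (prof_le_one hb) hg.le
      _ = g := mul_one g
  · have h3 := exp_le_prof hb
    have h4 : g * Real.exp (-(t / 2)) ≤ 2 ^ N :=
      (mul_le_mul_of_nonneg_left h3 hg.le).trans h2
    rw [Real.exp_neg, ← div_eq_mul_inv, div_le_iff₀ (Real.exp_pos _)] at h4
    exact h4

/-- the choice of the prime -/
theorem choose_prime2 {N t n D : ℕ} {m L ρ : ℝ} (hs : StepNum2 N t n D m L ρ)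
    (g : ℝ) (h1 : (ρ / 2) ^ N ≤ g) (h2 : g ≤ 2 ^ N * Real.exp (t / 2)) :
    ∃ p : ℕ, p.Prime ∧ 3 / 2 * (1 / 4000) * N * p ≤ ((n : ℝ) ^ 5) ^ N * g ∧
      ((n : ℝ) ^ 5) ^ N * g < 3 * (1 / 4000) * N * p ∧ D + 2 ^ t + 3 < p ∧
      (3 * ((2 * (n : ℝ)) ^ t) ^ 2) ^ (2 ^ t) * Real.exp (-(1 / 4000 * N * m / 2)) * p < 1 := by
  have hn0 : (2 : ℝ) ≤ n := by exact_mod_cast hs.hn
  have hn1 : (0 : ℝ) < n := by linarith only [hn0]
  have hN0 : (1 : ℝ) ≤ N := by exact_mod_cast hs.hN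
  have hρ := hs.hρ
  have hlow : ((n : ℝ) ^ 5 * (ρ / 2)) ^ N ≤ ((n : ℝ) ^ 5) ^ N * g := by
    rw [mul_pow]
    (clear * - h1 hn0; gcongr)
  have h3 := hs.hpD
  have hD0 : (0 : ℝ) ≤ D := Nat.cast_nonneg _
  have h2t : (0 : ℝ) < 2 ^ t := by positivity
  obtain ⟨p, hp, hp1, hp2⟩ := exists_prime_real (((n : ℝ) ^ 5) ^ N * g / (3 / 2 * (1 / 4000) * N)) (by
    rw [le_div_iff₀ (by positivity)]
    have : (N : ℝ) * 3 ≤ N * (D + 2 ^ t + 3) := by
      apply mul_le_mul_of_nonneg_left _ (by linarith only [hN0])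
      linarith only [hD0, h2t]
    linarith only [h3, hlow, hN0, this])
  rw [div_div, div_lt_iff₀ (by positivity)] at hp1
  rw [le_div_iff₀ (by positivity)] at hp2
  have h4 : ((n : ℝ) ^ 5) ^ N * g < 3 * (1 / 4000) * N * p := by
    linarith only [hp1]
  have h5 : ((D : ℝ) + 2 ^ t + 3) < p := by
    have : 3 * (1 / 4000) * N * ((D : ℝ) + 2 ^ t + 3) < 3 * (1 / 4000) * N * p := by
      linarith only [hlow, h3, h4]
    exact lt_of_mul_lt_mul_left this (by (clear * - hN0; positivity))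
  refine ⟨p, hp, by linarith only [hp2], h4, by exact_mod_cast h5, ?_⟩
  have h7 := hs.hunion
  have h8 : 3 / 2 * (1 / 4000) * N * p ≤ (2 * (n : ℝ) ^ 5) ^ N * Real.exp (t / 2) := by
    calc 3 / 2 * (1 / 4000) * N * p ≤ ((n : ℝ) ^ 5) ^ N * g := by linarith only [hp2]
      _ ≤ ((n : ℝ) ^ 5) ^ N * (2 ^ N * Real.exp (t / 2)) := by (clear * - h2 hn0; gcongr)
      _ = _ := by
        rw [← mul_assoc, ← mul_pow]
        congr 2
        ring
  set Λ : ℝ := (3 * ((2 * (n : ℝ)) ^ t) ^ 2) ^ (2 ^ t) * Real.exp (-(1 / 4000 * N * m / 2)) with hΛ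
  have hΛ0 : 0 ≤ Λ := by (clear * - hn0; positivity)
  have h9 : (3 / 2 * (1 / 4000) * N) * (Λ * p) < (3 / 2 * (1 / 4000) * N) * 1 := by
    calc (3 / 2 * (1 / 4000) * N) * (Λ * p)
        = Λ * (3 / 2 * (1 / 4000) * N * p) := by ring
      _ ≤ Λ * ((2 * (n : ℝ) ^ 5) ^ N * Real.exp (t / 2)) := mul_le_mul_of_nonneg_left h8 hΛ0
      _ < _ := by linarith only [h7]
  exact lt_of_mul_lt_mul_left h9 (by (clear * - hN0; positivity))

/-- the product of the failure rates -/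
theorem prod_rates {N t n D : ℕ} {m L ρ : ℝ} (hs : StepNum2 N t n D m L ρ)
    {ι : Type} (P : Finset ι) (hP : P.card ≤ 2 ^ t) (θ : ι → ℝ) (hθ : m ≤ ∑ z ∈ P, θ z)
    (p : ℝ) (hp : 0 < p)
    (hprod : (3 * ((2 * (n : ℝ)) ^ t) ^ 2) ^ (2 ^ t) * Real.exp (-(1 / 4000 * N * m / 2)) * p < 1) :
    (∏ z ∈ P, ((2 * (n : ℝ)) ^ t * ((2 * (n : ℝ)) ^ t * (3 * Real.exp (-(1 / 4000 * N * θ z / 2)))))) * p
      < (2 * (n : ℝ)) ^ t := by
  have hn0 : (2 : ℝ) ≤ n := by exact_mod_cast hs.hn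
  have hM1 : (1 : ℝ) ≤ (2 * (n : ℝ)) ^ t := one_le_pow₀ (by linarith only [hn0])
  set M : ℝ := (2 * (n : ℝ)) ^ t with hM
  have hM0 : (0 : ℝ) < M := by linarith only [hM1]
  have e1 : ∀ z ∈ P, M * (M * (3 * Real.exp (-(1 / 4000 * N * θ z / 2)))) =
      (3 * M ^ 2) * Real.exp (-(1 / 4000 * N * θ z / 2)) := fun z _ => by ring
  rw [Finset.prod_congr rfl e1, Finset.prod_mul_distrib, Finset.prod_const, ← Real.exp_sum]
  have e2 : ∑ z ∈ P, -(1 / 4000 * (N : ℝ) * θ z / 2) = -(1 / 4000 * N * (∑ z ∈ P, θ z) / 2) := by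
    rw [Finset.sum_neg_distrib, Finset.mul_sum, Finset.sum_div]
  rw [e2]
  have h3M : (1 : ℝ) ≤ 3 * M ^ 2 := by nlinarith only [hM1]
  have h1 : (3 * M ^ 2) ^ P.card ≤ (3 * M ^ 2) ^ (2 ^ t) := pow_le_pow_right₀ h3M hP
  have h2 : Real.exp (-(1 / 4000 * N * (∑ z ∈ P, θ z) / 2)) ≤
      Real.exp (-(1 / 4000 * N * m / 2)) := by
    apply Real.exp_le_exp.2
    have hN0 : (0 : ℝ) ≤ N := Nat.cast_nonneg _
    have := mul_le_mul_of_nonneg_left hθ hN0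
    linarith only [this]
  calc (3 * M ^ 2) ^ P.card * Real.exp (-(1 / 4000 * N * (∑ z ∈ P, θ z) / 2)) * p
      ≤ (3 * M ^ 2) ^ (2 ^ t) * Real.exp (-(1 / 4000 * N * m / 2)) * p := by
        apply mul_le_mul_of_nonneg_right _ hp.le
        apply mul_le_mul h1 h2 (Real.exp_pos _).le (by (clear * - hM0; positivity))
    _ < 1 := hprod
    _ ≤ M := hM1

theorem step_profile (hD2 : StmtD2) (hD3 : StmtD3) (hD3' : StmtD3')
    {N t n D : ℕ} {m L ρ W : ℝ} (hs : StepNum2 N t n D m L ρ)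
    (hbase : StmtD1 N) (hW : 0 ≤ W) (hball : BallData2 N t n ρ W)
    (ML : Matrix (Fin t) (Fin t) ℝ) (hML : ML.det ≠ 0) (hlat : LatticeData t D m ML) :
    Cov n 0 (3 * (1 / 4000) * N * W / |ML.det|) := by
  classical
  have hNn := hs.hNn
  subst hNn
  set n := N + t with hn
  have hn2 := hs.hn
  have hnpos : (0 : ℝ) < n := by
    have : 0 < n := by (clear * - hn2; omega)
    exact_mod_cast this
  have hn5 : (0 : ℝ) < (n : ℝ) ^ 5 := by (clear * - hn2; positivity)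
  have hN0 : (1 : ℝ) ≤ N := by exact_mod_cast hs.hN
  have hsT := hs.toT
  intro K₀ hK₀c hK₀k hK₀i
  obtain ⟨A₀, v₀, T, g, hA₀, hg, hT, hvol, hkey⟩ := hball K₀ hK₀c hK₀k hK₀i
  apply CovFor.affine A₀ v₀ hA₀
  set K : Set (Fin n → ℝ) := {x : Fin n → ℝ | A₀.mulVec x + v₀ ∈ K₀} with hK
  set Kp : Set ((Fin N → ℝ) × (Fin t → ℝ)) := {q | Fin.append q.1 q.2 ∈ K} with hKp
  set A : Set (Fin t → ℝ) := {b | Ann t b} with hA
  choose P hPtree hPann hPsum using fun j : Fin t → Fin n =>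
    hlat (ML.mulVec (fun a => ((j a : ℕ) : ℝ) / n))
  have hPne : ∀ y : Fin t → ℝ, ∀ P' : Finset (Fin t → ℤ),
      m ≤ ∑ z ∈ P', prof t (fun i => y i + ML.mulVec (fun a => (z a : ℝ)) i) →
      P'.Nonempty := by
    intro y P' h
    by_contra hcon
    rw [Finset.not_nonempty_iff_eq_empty] at hcon
    rw [hcon, Finset.sum_empty] at h
    linarith only [h, hs.hm]
  have hzcov : ∀ y : Fin t → ℝ, ∃ ζ : Fin t → ℤ, y + ML.mulVec (fun a => (ζ a : ℝ)) ∈ A := by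
    intro y
    obtain ⟨P', _, h2, h3⟩ := hlat y
    obtain ⟨z, hz⟩ := hPne y P' h3
    exact ⟨z, h2 z hz⟩
  have hz : ∀ j, ∀ z ∈ P j, ML.mulVec (fun a => ((j a : ℕ) : ℝ) / n) +
      ML.mulVec (fun a => (z a : ℝ)) ∈ A := fun j z hz => hPann j z hz
  set θ : (Fin t → Fin n) → (Fin t → ℤ) → ℝ := fun j z =>
    prof t (ML.mulVec (fun a => ((j a : ℕ) : ℝ) / n) + ML.mulVec (fun a => (z a : ℝ))) with hθ
  have hθ0 : ∀ j z, 0 < θ j z := fun j z => prof_pos _ _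
  have hdata : ∀ (j : Fin t → Fin n) (z : Fin t → ℤ),
      ∃ (Q : Set (Fin N → ℝ)) (w : Fin N → ℤ), z ∈ P j → (NormalizedR Q ((N : ℝ) ^ 3) ∧
      (∀ s ∈ intPts Q (2 * (n : ℝ) ^ 5), ∀ f : Fin N → ℝ, (∀ l, 0 ≤ f l ∧ f l ≤ 1) →
        (fun l => ((s l : ℝ) + w l + f l) / (n : ℝ) ^ 5) ∈
        T (ML.mulVec (fun a => ((j a : ℕ) : ℝ) / n) + ML.mulVec (fun a => (z a : ℝ)))) ∧
      2 / 3 * (((n : ℝ) ^ 5) ^ N * (g * θ j z)) ≤ ((intPts Q (2 * (n : ℝ) ^ 5)).card : ℝ) ∧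
      ((intPts Q (2 * (n : ℝ) ^ 5)).card : ℝ) ≤ 4 / 3 * (((n : ℝ) ^ 5) ^ N * (g * θ j z))) := by
    intro j z
    by_cases hzP : z ∈ P j
    · obtain ⟨h1, h2, h3, h4, h5, h6⟩ := hT _ (hz j z hzP)
      obtain ⟨Q, w, hQ⟩ := slice_dataT hsT _ h1 h2 h3 h4 (g * θ j z) (mul_pos hg (hθ0 j z)) h5 h6
      exact ⟨Q, w, fun _ => hQ⟩
    · exact ⟨∅, 0, fun h => absurd h hzP⟩
  choose Q w hQw using hdata
  -- a point of the annulus
  obtain ⟨b₀, hb₀⟩ : ∃ b, b ∈ A := by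
    obtain ⟨ζ, hζ⟩ := hzcov 0
    exact ⟨_, hζ⟩
  have hgb : (ρ / 2) ^ N ≤ g ∧ g ≤ 2 ^ N * Real.exp (t / 2) := by
    obtain ⟨h1, h2, h3, h4, h5, h6⟩ := hT b₀ hb₀
    exact g_bounds2 hs.hρ _ b₀ hb₀ h3 h4 g hg h5 h6
  obtain ⟨p, hp, hp1, hp2, hpD, hprod⟩ := choose_prime2 hs g hgb.1 hgb.2
  have hfact : Fact p.Prime := ⟨hp⟩
  have hp0 : (0 : ℝ) < p := by exact_mod_cast hp.pos
  -- the index set
  set I : Type := Σ j : (Fin t → Fin n), {z // z ∈ P j} with hI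
  have hcardP : ∀ j, (P j).card ≤ 2 ^ t := fun j => hD3' (hPtree j)
  have hcardJ : (Fintype.card (Fin t → Fin n) : ℝ) = (n : ℝ) ^ t := by
    simp only [Fintype.card_pi, Fintype.card_fin, prod_const, card_univ, Nat.cast_pow]
  have hsumP : ∑ j, ((P j).card : ℝ) ≤ (2 * (n : ℝ)) ^ t := by
    calc ∑ j, ((P j).card : ℝ) ≤ ∑ _j : (Fin t → Fin n), (2 : ℝ) ^ t :=
          Finset.sum_le_sum fun j _ => by exact_mod_cast hcardP j
      _ = (2 * (n : ℝ)) ^ t := by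
          rw [Finset.sum_const, nsmul_eq_mul, Finset.card_univ, hcardJ, ← mul_pow, mul_comm]
  have hcardI : (Fintype.card I : ℝ) ≤ (2 * (n : ℝ)) ^ t := by
    have e : Fintype.card I = ∑ j, (P j).card :=
      Fintype.card_sigma.trans (Finset.sum_congr rfl fun j _ => Fintype.card_coe _)
    rw [e]
    push_cast
    exact hsumP
  set bad : I → Finset ((Fin N → ZMod p) × ZMod p) := fun i =>
      univ.filter (fun hu : (Fin N → ZMod p) × ZMod p =>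
        hit p (intPts (Q i.1 i.2.1) (2 * (n : ℝ) ^ 5)) hu.1 hu.2 = ∅) with hbaddef
  set ε : I → ℝ := fun i => 3 * Real.exp (-(1 / 4000 * N * θ i.1 i.2.1 / 2)) with hε
  have hε0 : ∀ i, 0 < ε i := fun i => by
    rw [hε]
    (clear * -; positivity)
  have hbad : ∀ i, ((bad i).card : ℝ) ≤ ε i * (p : ℝ) ^ (N + 1) := by
    intro i
    obtain ⟨hQ, hin, hlo, hup⟩ := hQw i.1 i.2.1 i.2.2
    have hθ1 : θ i.1 i.2.1 ≤ 1 := prof_le_one (hz i.1 i.2.1 i.2.2)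
    have hθ00 := hθ0 i.1 i.2.1
    have hX : 0 < ((n : ℝ) ^ 5) ^ N := by (clear * - hn5; positivity)
    have hXg : ((n : ℝ) ^ 5) ^ N * (g * θ i.1 i.2.1) ≤ ((n : ℝ) ^ 5) ^ N * g := by
      apply mul_le_mul_of_nonneg_left _ hX.le
      calc g * θ i.1 i.2.1 ≤ g * 1 := mul_le_mul_of_nonneg_left hθ1 hg.le
        _ = g := mul_one g
    have h1 := hbase _ hQ (2 * (n : ℝ) ^ 5) hs.hlam1 hs.hlam2 p (by
      linarith only [hXg, hup, hp2])
    refine le_trans (le_of_eq ?_) (h1.trans ?_)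
    · rw [hbaddef]
    · apply mul_le_mul_of_nonneg_right _ (by (clear * - hp0; positivity))
      rw [hε]
      apply mul_le_mul_of_nonneg_left _ (by norm_num)
      apply Real.exp_le_exp.2
      have h2 : 1 / 4000 * N * θ i.1 i.2.1 ≤
          ((intPts (Q i.1 i.2.1) (2 * (n : ℝ) ^ 5)).card : ℝ) / p := by
        rw [le_div_iff₀ hp0]
        refine le_trans ?_ hlo
        have h3 := mul_le_mul_of_nonneg_right hp1 hθ00.le
        linarith only [h3]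
      linarith only [h2]
  obtain ⟨h, hh⟩ := hD2 p bad ε hε0 hbad
  -- the second coordinate
  set U : (Fin t → Fin n) → (Fin t → ℤ) → Finset (ZMod p) := fun j z =>
    univ.filter (fun u : ZMod p => hit p (intPts (Q j z) (2 * (n : ℝ) ^ 5)) h
      (u - ∑ a, h a * (w j z a : ZMod p)) = ∅) with hU
  have hbad' : ∀ (j : Fin t → Fin n) (z : Fin t → ℤ), z ∈ P j →
      (((univ.filter (fun u : ZMod p =>
        hit p (intPts (Q j z) (2 * (n : ℝ) ^ 5)) h u = ∅)).card : ℝ)) ≤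
        ((2 * (n : ℝ)) ^ t * (3 * Real.exp (-(1 / 4000 * N * θ j z / 2)))) * p := by
    intro j z hzP
    have h1 := hh ⟨j, z, hzP⟩
    refine le_trans (le_of_eq ?_) (h1.trans ?_)
    · congr 2
      ext u
      rw [hbaddef]
      simp only [mem_filter, mem_univ, true_and]
    · apply mul_le_mul_of_nonneg_right _ hp0.le
      rw [hε]
      apply mul_le_mul_of_nonneg_right hcardI (by (clear * -; positivity))
  have hUcard : ∀ j, ∀ z ∈ P j, ((U j z).card : ℝ) ≤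
      ((2 * (n : ℝ)) ^ t * (3 * Real.exp (-(1 / 4000 * N * θ j z / 2)))) * p := by
    intro j z hzP
    refine le_trans (le_of_eq ?_) (hbad' j z hzP)
    congr 1
    refine Finset.card_bij' (fun u _ => u - ∑ a, h a * (w j z a : ZMod p))
      (fun u _ => u + ∑ a, h a * (w j z a : ZMod p)) ?_ ?_ ?_ ?_
    · intro u hu
      simp only [hU, mem_filter, mem_univ, true_and] at hu ⊢
      exact hu
    · intro u hu
      simp only [hU, mem_filter, mem_univ, true_and] at hu ⊢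
      simpa only [add_sub_cancel_right] using hu
    · intro u _
      simp only [sub_add_cancel]
    · intro u _
      simp only [add_sub_cancel_right]
  obtain ⟨gg, hgg⟩ := hD3 p P (fun j => hPne _ _ (hPsum j)) D
    (lt_of_le_of_lt ((Nat.le_add_right _ _).trans (Nat.le_add_right _ _)) hpD) hPtree U
    (fun j z => (2 * (n : ℝ)) ^ t * (3 * Real.exp (-(1 / 4000 * N * θ j z / 2))))
    (fun j z => by (clear * -; positivity)) hUcard ((2 * (n : ℝ)) ^ t) hsumP (fun j =>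
      prod_rates hs (P j) (hcardP j) (θ j) (hPsum j) p hp0 hprod)
  -- `h ≠ 0`
  have hne : h ≠ 0 := by
    intro h0
    obtain ⟨j, _⟩ : ∃ j : Fin t → Fin n, True :=
      ⟨fun _ => ⟨0, by (clear * - hn2; omega)⟩, trivial⟩
    have h1 : ∀ u : ZMod p, ∃ z ∈ P j, u = ∑ a, gg a * (z a : ZMod p) := by
      intro u
      obtain ⟨z, hzP, hz'⟩ := hgg j u
      refine ⟨z, hzP, ?_⟩
      simp only [hU, mem_filter, mem_univ, true_and] at hz'
      rw [← Finset.not_nonempty_iff_eq_empty, not_not] at hz'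
      obtain ⟨s, hs'⟩ := hz'
      rw [hit, mem_filter, h0] at hs'
      simp only [Pi.zero_apply, zero_mul, sum_const_zero, sub_zero] at hs'
      exact sub_eq_zero.1 hs'.2.symm
    have h2 : (univ : Finset (ZMod p)) ⊆
        (P j).image (fun z => ∑ a, gg a * (z a : ZMod p)) := by
      intro u _
      obtain ⟨z, hzP, hz'⟩ := h1 u
      exact Finset.mem_image.2 ⟨z, hzP, hz'.symm⟩
    have h3 := (Finset.card_le_card h2).trans Finset.card_image_le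
    rw [card_univ, ZMod.card] at h3
    have h4 := hcardP j
    have h5 : 2 ^ t ≤ D + 2 ^ t + 3 := (Nat.le_add_left _ _).trans (Nat.le_add_right _ _)
    exact absurd (lt_of_le_of_lt h5 hpD) (not_lt.2 (h3.trans h4))
  -- conclusion
  refine covFor_of_prod K 0 _ ((n : ℝ) ^ 5) hn5 ML hML p h hne gg ?_ ?_
  · have hdet : 0 < |ML.det| := abs_pos.2 hML
    refine hvol.trans (ENNReal.ofReal_le_ofReal ?_)
    have h1 : g ≤ 3 * (1 / 4000) * N * p / ((n : ℝ) ^ 5) ^ N := by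
      rw [le_div_iff₀ (by (clear * - hn2; positivity))]
      linarith only [hp2]
    calc W * g ≤ W * (3 * (1 / 4000) * N * p / ((n : ℝ) ^ 5) ^ N) := by
          (clear * - h1 hW; gcongr)
      _ = _ := by
        (clear * - hML hn2 hp0 hN0; field_simp)
  · intro y y'
    have h0 := step_coverT hsT Kp A T (fun b hb => ?_)
      (fun b hb a ha x hx x' hx' => hkey b hb a ha x hx x' hx') ML hzcov P hz Q w
      (fun j z hzP => (hQw j z hzP).2.1) p h gg ?_ y y'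
    · obtain ⟨s, ζ, h1, h2⟩ := h0
      refine ⟨fun _ => s, fun _ => ζ, fun _ => h1, fun _ => h2, fun q _ _ => ?_⟩
      have : IsEmpty (Fin ⌈(0 : ℝ) * ((N + t : ℕ) : ℝ)⌉₊) := by
        simp only [zero_mul, Nat.ceil_zero]
        exact Fin.isEmpty
      exact linearIndependent_empty_type
    · obtain ⟨_, _, _, ⟨x₀, hx₀⟩, _⟩ := hT b hb
      exact ⟨x₀ + 0, hx₀ 0 (fun i => ⟨le_rfl, hs.hρ.le⟩)⟩
    · intro j u
      obtain ⟨z, hzP, hz'⟩ := hgg j u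
      refine ⟨z, hzP, ?_⟩
      simp only [hU, mem_filter, mem_univ, true_and] at hz'
      rw [← Finset.not_nonempty_iff_eq_empty, not_not] at hz'
      exact hz'

end Vale.Agent.P230.H691
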